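import Vale.Agent.P354M.Low

/-!
From the frame to the metric.
-/

open scoped ContDiff
open MeasureTheory Set Filter Topology

namespace Vale.Agent.P354M

open Vale.Agent.P354n (R4 cu cv du dv form)
open Vale.Agent.P354L hiding Wt
open Vale.Agent.P354H (X3 e dt dx)
open Vale.Agent.P354C hiding E
open Vale.Agent.P354C.Ix
open Vale.Agent.P354A hiding dv
open Vale.Agent.P354I (IsCh IsInit Th r2 BlowR BlowL ANA)
open Vale.Agent.P354P (uv cfu)

variable {k A0 ε η δ cb u1 v1 : ℝ} {a A : ℝ → ℝ} {u : X3 → Ix → ℝ} {U : R4 → Ix → ℝ} {y : R4}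

lemma kap_wt (hk : 0 < k) (hW : Wt k a A A0) : P354L.Wt (k / 2) (kap k a) := by
  have hm : Monotone A := monotone_of_deriv_nonneg (fun y => (hW.prim y).differentiableAt)
    fun y => by rw [(hW.prim y).deriv]; exact (hW.pos y).le
  refine ⟨half_pos hk, ?_, fun t => ?_, fun t => ?_, fun t => ⟨_, fun s hs => kap_le hk hW hs⟩⟩
  · have := hW.ca
    unfold kap
    fun_prop
  · have := hW.pos t
    have := Real.exp_pos (-(k / 16 * t))
    unfold kap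
    linarith
  · have h1 : IntegrableOn a (Ioi t) := integrableOn_Ioi_deriv_of_nonneg' (fun y _ => hW.prim y)
      (fun y _ => (hW.pos y).le) (tendsto_atTop_ciSup hm ⟨A0, by rintro _ ⟨y, rfl⟩; exact hW.bd y⟩)
    have h2 := exp_neg_integrableOn_Ioi t (show 0 < k / 16 by positivity)
    have h3 := exp_neg_integrableOn_Ioi t (half_pos hk)
    simp only [neg_mul] at h2 h3
    exact (h1.add h2).add h3

/-- The coefficients of the metric. -/
noncomputable def Cf (U : R4 → Ix → ℝ) (i : ℕ) (y : R4) : ℝ := cfu (U (uv.symm y)) i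

lemma Cf_eq (hU : IsCh k a ε η δ cb u U) (hy : y ∈ Om δ) :
    Cf U 0 y = S k U O y * S k U O y * (S k U P22 y * S k U P22 y + S k U P12 y * S k U P12 y) *
      ((dS k U y)⁻¹ * (dS k U y)⁻¹) ∧
    Cf U 1 y = -2 * (S k U O y * S k U O y * (S k U P22 y * S k U P21 y +
      S k U P11 y * S k U P12 y) * ((dS k U y)⁻¹ * (dS k U y)⁻¹)) ∧
    Cf U 2 y = S k U O y * S k U O y * (S k U P21 y * S k U P21 y + S k U P11 y * S k U P11 y) *
      ((dS k U y)⁻¹ * (dS k U y)⁻¹) := by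
  have h1 := (full_at hU hy).2.2
  have h2 := (Ex_pos (k / 4) y).ne'
  rw [dS_eq]
  simp only [Cf, cfu, S, F]
  refine ⟨?_, ?_, ?_⟩ <;> field_simp

lemma dS_ne (hU : IsCh k a ε η δ cb u U) (hy : y ∈ Om δ) : dS k U y ≠ 0 := by
  rw [dS_eq]
  exact mul_ne_zero (pow_pos (Ex_pos _ _) 2).ne' (full_at hU hy).2.2

lemma Ctx.gC (c : Ctx k a A A0 ε η δ cb u U u1 v1) :
    ∀ i < 3, Gd k a (Qd u1 v1 Th) (Cf U i) := by
  obtain ⟨c1, h1, h2⟩ := c.lowD
  have o := c.gS (i := O) rfl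
  have p11 := c.gS (i := P11) rfl
  have p12 := c.gS (i := P12) rfl
  have p21 := c.gS (i := P21) rfl
  have p22 := c.gS (i := P22) rfl
  have d := winv (f := dS k U) (W.sub (W.mul1 p11 p22) (W.mul1 p12 p21)) h1 h2
  intro i hi
  interval_cases i
  · exact wcongr (W.mul1 (W.mul1 (W.mul1 o o) (W.add (W.mul1 p22 p22) (W.mul1 p12 p12)))
      (W.mul1 d d)) (isOpen_Qd _ _) fun y hy => (Cf_eq c.hU (c.sub hy)).1
  · exact wcongr (W.cmul (-2) (W.mul1 (W.mul1 (W.mul1 o o) (W.add (W.mul1 p22 p21)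
      (W.mul1 p11 p12))) (W.mul1 d d))) (isOpen_Qd _ _) fun y hy => (Cf_eq c.hU (c.sub hy)).2.1
  · exact wcongr (W.mul1 (W.mul1 (W.mul1 o o) (W.add (W.mul1 p21 p21) (W.mul1 p11 p11)))
      (W.mul1 d d)) (isOpen_Qd _ _) fun y hy => (Cf_eq c.hU (c.sub hy)).2.2

lemma Ctx.bdS (c : Ctx k a A A0 ε η δ cb u U u1 v1) :
    ∃ M, 0 ≤ M ∧ ∀ y ∈ Qd u1 v1 Th, ∀ i, cls i = .P → |S k U i y| ≤ M := by
  choose K h0 hK using fun i : {i // cls i = .P} => W.bd (c.spS (p_odd i.1 i.2))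
  refine ⟨∑ i, K i, Finset.sum_nonneg fun i _ => h0 i, fun y hy i hi => ?_⟩
  exact (by simpa using hK ⟨i, hi⟩ y hy : _ ≤ K ⟨i, hi⟩).trans
    (Finset.single_le_sum (fun i _ => h0 i) (Finset.mem_univ _))

lemma Ctx.bdF (c : Ctx k a A A0 ε η δ cb u U u1 v1) :
    ∃ M, 0 ≤ M ∧ ∀ y ∈ Qd u1 v1 Th, ∀ i, |F U i y| ≤ M := by
  choose K h0 hK using fun i => W.bd (c.spF i)
  refine ⟨∑ i, K i, Finset.sum_nonneg fun i _ => h0 i, fun y hy i => ?_⟩
  exact (by simpa using hK i y hy : _ ≤ K i).trans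
    (Finset.single_le_sum (fun i _ => h0 i) (Finset.mem_univ _))

lemma om_eq (k : ℝ) (U : R4 → Ix → ℝ) (y : R4) :
    Cf U 3 y * Real.exp (k / 2 * (cu y + cv y)) = S k U O y * S k U O y := by
  have := Ex_mul (k / 4) (k / 4) y
  rw [show k / 4 + k / 4 = k / 2 by ring] at this
  simp only [Cf, cfu, S, F]
  rw [show Real.exp (k / 2 * (cu y + cv y)) = _ from this.symm]
  ring

lemma low_alg {o p11 p12 p21 p22 d c1 M s t : ℝ} (h1 : 0 < c1) (ho : c1 ≤ |o|)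
    (b11 : |p11| ≤ M) (b12 : |p12| ≤ M) (b21 : |p21| ≤ M) (b22 : |p22| ≤ M)
    (hd : d = p11 * p22 - p12 * p21) (h0 : d ≠ 0) :
    max |s| |t| ^ 2 ≤ (1 + 2 * M ^ 2) / c1 ^ 2 *
      (o * o * (p22 * p22 + p12 * p12) * (d⁻¹ * d⁻¹) * s ^ 2 +
        -2 * (o * o * (p22 * p21 + p11 * p12) * (d⁻¹ * d⁻¹)) * s * t +
        o * o * (p21 * p21 + p11 * p11) * (d⁻¹ * d⁻¹) * t ^ 2) := by
  obtain ⟨x, hx⟩ : ∃ x, x = (p22 * s - p21 * t) / d := ⟨_, rfl⟩
  obtain ⟨z, hz⟩ : ∃ z, z = (p11 * t - p12 * s) / d := ⟨_, rfl⟩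
  have e1 : s = p11 * x + p21 * z := by rw [hx, hz]; field_simp; rw [hd]; ring
  have e2 : t = p12 * x + p22 * z := by rw [hx, hz]; field_simp; rw [hd]; ring
  have e3 : o * o * (p22 * p22 + p12 * p12) * (d⁻¹ * d⁻¹) * s ^ 2 +
      -2 * (o * o * (p22 * p21 + p11 * p12) * (d⁻¹ * d⁻¹)) * s * t +
      o * o * (p21 * p21 + p11 * p11) * (d⁻¹ * d⁻¹) * t ^ 2 = o ^ 2 * (x ^ 2 + z ^ 2) := by
    rw [hx, hz]; field_simp; ring
  have k : ∀ p q : ℝ, |p| ≤ M → |q| ≤ M → (p * x + q * z) ^ 2 ≤ 2 * M ^ 2 * (x ^ 2 + z ^ 2) :=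
    fun p q hp hq => by
      have := sq_le_sq' (abs_le.1 hp).1 (abs_le.1 hp).2
      have := sq_le_sq' (abs_le.1 hq).1 (abs_le.1 hq).2
      nlinarith [sq_nonneg (p * z - q * x), sq_nonneg x, sq_nonneg z]
  have k1 : max |s| |t| ^ 2 ≤ 2 * M ^ 2 * (x ^ 2 + z ^ 2) := by
    rcases max_choice |s| |t| with h | h <;> rw [h, sq_abs]
    · rw [e1]; exact k _ _ b11 b21
    · rw [e2]; exact k _ _ b12 b22
  have k2 : c1 ^ 2 ≤ o ^ 2 := by rw [← sq_abs o]; exact pow_le_pow_left₀ h1.le ho 2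
  have k3 : 0 ≤ x ^ 2 + z ^ 2 := by positivity
  rw [e3, div_mul_eq_mul_div, le_div_iff₀ (by positivity)]
  have k4 := mul_le_mul k1 k2 (by positivity) (by positivity)
  nlinarith [mul_nonneg (sq_nonneg o) k3]

lemma Cf4 (U : R4 → Ix → ℝ) : Cf U 4 = (fun y => 1 / 2 * F U b1 y) ∧
    Cf U 5 = fun y => 1 / 2 * F U b2 y := by
  constructor <;> funext y <;> simp only [Cf, cfu, F] <;> ring

lemma D_half (hU : IsCh k a ε η δ cb u U) (hy : y ∈ Om δ) (i : Ix) (b : R4) :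
    D b (fun y => 1 / 2 * F U i y) y = 1 / 2 * D b (F U i) y := by
  rw [D_mul b (differentiableAt_const _) (dif (F_sm hU hy.1 i)), D_const]
  ring

lemma Ctx.est (c : Ctx k a A A0 ε η δ cb u U u1 v1) :
    Est (k / 2) (kap k a) (Qd u1 v1 Th) (Cf U) := by
  obtain ⟨c1, h1, h2⟩ := c.lowO
  obtain ⟨M, h3, h4⟩ := c.bdS
  refine ⟨fun i hi => ?_, fun om' e => ?_, ⟨(1 + 2 * M ^ 2) / c1 ^ 2, by positivity,
    fun y hy => ⟨?_, ?_⟩⟩,
    fun i hi => ?_⟩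
  · obtain ⟨g1, g2, g3⟩ := gd_iff.1 (c.gC i hi)
    exact ⟨(t1_iff.1 g1).1.sy, (t1_iff.1 g2).1.low.sy, (t1_iff.1 g3).1.low.sy,
      W.congr (t1_iff.1 g2).2.2.low.low.sy fun x hx => D_comm_ev _ _ (W.sm g1 x hx),
      (t1_iff.1 g3).2.1.low.low.sy⟩
  · rw [e, funext (om_eq k U)]
    obtain ⟨g1, g2, g3⟩ := (gd_iff (k := k) (a := a)).1
      (W.mul1 (c.gS (i := O) rfl) (c.gS (i := O) rfl))
    exact ⟨(t1_iff.1 g1).1.low.sy, (t1_iff.1 g2).1.low.low.sy, (t1_iff.1 g3).1.low.low.sy⟩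
  · have k2 : c1 ^ 2 ≤ S k U O y ^ 2 := by
      rw [← sq_abs (S k U O y)]; exact pow_le_pow_left₀ h1.le (h2 y hy) 2
    rw [om_eq, div_mul_eq_mul_div, le_div_iff₀ (by positivity)]
    nlinarith [mul_nonneg (sq_nonneg M) (sq_nonneg (S k U O y))]
  · rintro ⟨s0, s1, s, t⟩ e0 e1
    obtain rfl : s0 = 0 := e0
    obtain rfl : s1 = 0 := e1
    obtain ⟨q0, q1, q2⟩ := Cf_eq c.hU (c.sub hy)
    have := low_alg (s := s) (t := t) h1 (h2 y hy) (h4 y hy P11 rfl) (h4 y hy P12 rfl)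
      (h4 y hy P21 rfl) (h4 y hy P22 rfl) (d := dS k U y) rfl (dS_ne c.hU (c.sub hy))
    rw [← q0, ← q1, ← q2] at this
    simpa [form, P354n.h1, P354n.h2, cu, cv, P354n.c1, P354n.c2, Prod.norm_def] using this
  · have k1 : ∀ j p q, j = b1 ∨ j = b2 → cls p = .P → cls q = .P → (∀ y ∈ Om δ,
        dfr U (uv.symm y) 1 j = 2 * ((F U A1 y - F U B1 y) * F U p y +
          (F U A2 y - F U B2 y) * F U q y)) →
        Sy (Qd u1 v1 Th) 3 (fun y => 1 / 2 * F U j y) (fun x => kap k a (cv x)) ∧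
        Sy (Qd u1 v1 Th) 2 (D du fun y => 1 / 2 * F U j y)
          (fun x => Real.exp (-(k / 2 * (cu x + cv x)))) ∧
        Sy (Qd u1 v1 Th) 0 (D dv fun y => 1 / 2 * F U j y) 1 := fun j p q hj hp hq he => by
      have g : good true j ∧ j ≠ om ∧ j ≠ omb := by rcases hj with rfl | rfl <;> decide
      refine ⟨W.cmul _ (c.spG g).low.sy, ?_,
        ((t1_iff.1 (W.cmul (1 / 2) (c.tF j))).2.2.le (Nat.zero_le _)).sy⟩
      have g2 : Sp (Qd u1 v1 Th) 4 _ _ := W.cmul (1 / 2) (W.add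
        (W.mul (W.sub (c.spZ (i := A1) rfl) (c.spZ (i := B1) rfl)) (c.spZ (p_odd p hp)))
        (W.mul (W.sub (c.spZ (i := A2) rfl) (c.spZ (i := B2) rfl)) (c.spZ (p_odd q hq))))
      refine (wcongr g2.low.low.sy (isOpen_Qd _ _) fun y hy => ?_).eqw fun y _ => ?_
      · have := he y (c.sub hy)
        rw [(dfr_F U y j).2.1] at this
        rw [D_half c.hU (c.sub hy)]
        linarith
      · rw [Pi.mul_apply, Ex_mul, Ex]
        congr 1
        ring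
    rcases hi with rfl | rfl
    · rw [(Cf4 U).1]
      exact k1 b1 P11 P21 (.inl rfl) rfl rfl fun y hy => (nb (full_at c.hU hy).1).1
    · rw [(Cf4 U).2]
      exact k1 b2 P12 P22 (.inr rfl) rfl rfl fun y hy => (nb (full_at c.hU hy).1).2

lemma quad_D {g0 g1 g2 p q r s G : R4 → ℝ} (b : R4) (h0 : DifferentiableAt ℝ g0 y)
    (h1 : DifferentiableAt ℝ g1 y) (h2 : DifferentiableAt ℝ g2 y) (hp : DifferentiableAt ℝ p y)
    (hq : DifferentiableAt ℝ q y) (hr : DifferentiableAt ℝ r y) (hs : DifferentiableAt ℝ s y)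
    (h : (fun y => g0 y * (p y * r y) + 1 / 2 * (g1 y * (p y * s y + q y * r y)) +
      g2 y * (q y * s y)) =ᶠ[𝓝 y] G) :
    D b g0 y * (p y * r y) + g0 y * (D b p y * r y + p y * D b r y) +
      1 / 2 * (D b g1 y * (p y * s y + q y * r y) + g1 y * (D b p y * s y + p y * D b s y +
        (D b q y * r y + q y * D b r y))) +
      (D b g2 y * (q y * s y) + g2 y * (D b q y * s y + q y * D b s y)) = D b G y := by
  rw [← (D_congr b h).self_of_nhds]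
  simp (disch := fun_prop) only [D_add, D_mul, D_const, zero_mul, zero_add]

lemma isOpen_Om (δ : ℝ) : IsOpen (Om δ) :=
  IsOpen.and (isOpen_lt continuous_const (by unfold cu cv; fun_prop))
    (isOpen_lt (by fun_prop) continuous_const)

lemma rel0 (hU : IsCh k a ε η δ cb u U) (hy : y ∈ Om δ) :
    Cf U 0 y * S k U P11 y * S k U P11 y + Cf U 1 y * S k U P11 y * S k U P12 y +
      Cf U 2 y * S k U P12 y * S k U P12 y = S k U O y * S k U O y ∧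
    Cf U 0 y * S k U P11 y * S k U P21 y + Cf U 1 y / 2 * (S k U P11 y * S k U P22 y +
      S k U P12 y * S k U P21 y) + Cf U 2 y * S k U P12 y * S k U P22 y = 0 ∧
    Cf U 0 y * S k U P21 y * S k U P21 y + Cf U 1 y * S k U P21 y * S k U P22 y +
      Cf U 2 y * S k U P22 y * S k U P22 y = S k U O y * S k U O y := by
  obtain ⟨q0, q1, q2⟩ := Cf_eq hU hy
  have h := dS_ne hU hy
  rw [q0, q1, q2]
  refine ⟨?_, ?_, ?_⟩ <;> field_simp <;> simp only [dS] <;> ring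

lemma Cf_dif (hU : IsCh k a ε η δ cb u U) (hy : y ∈ Om δ) : DifferentiableAt ℝ (Cf U 0) y ∧
    DifferentiableAt ℝ (Cf U 1) y ∧ DifferentiableAt ℝ (Cf U 2) y := by
  have d := fun i => dif (S_sm hU hy i)
  have d1 : DifferentiableAt ℝ (fun y => (dS k U y)⁻¹) y :=
    DifferentiableAt.fun_inv (((d P11).mul (d P22)).sub ((d P12).mul (d P21))) (dS_ne hU hy)
  have ev := (isOpen_Om δ).mem_nhds hy
  refine ⟨DifferentiableAt.congr_of_eventuallyEq ?_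
      (eventually_of_mem ev fun y hy => (Cf_eq hU hy).1),
    DifferentiableAt.congr_of_eventuallyEq ?_
      (eventually_of_mem ev fun y hy => (Cf_eq hU hy).2.1),
    DifferentiableAt.congr_of_eventuallyEq ?_
      (eventually_of_mem ev fun y hy => (Cf_eq hU hy).2.2)⟩
  · exact (((d O).mul (d O)).mul (((d P22).mul (d P22)).add ((d P12).mul (d P12)))).mul (d1.mul d1)
  · exact ((((d O).mul (d O)).mul (((d P22).mul (d P21)).add ((d P11).mul (d P12)))).mul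
      (d1.mul d1)).const_mul _
  · exact (((d O).mul (d O)).mul (((d P21).mul (d P21)).add ((d P11).mul (d P11)))).mul (d1.mul d1)

lemma dom_alg {o c1 M x p q r s χ0 χ1 χ2 : ℝ} (h1 : 0 < c1) (ho : c1 ≤ |o|) (hp : |p| ≤ M)
    (hq : |q| ≤ M) (hr : |r| ≤ M) (hs : |s| ≤ M)
    (h : 2 * (o * o) * x = χ0 * p * r + χ1 / 2 * (p * s + q * r) + χ2 * q * s) :
    |x| ≤ M * M / c1 ^ 2 * (|χ0| + |χ1| + |χ2|) := by
  have hM := (abs_nonneg p).trans hp
  have m : ∀ {χ p q : ℝ}, |p| ≤ M → |q| ≤ M → |χ * (p * q)| ≤ |χ| * (M * M) := fun hp hq => by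
    rw [abs_mul, abs_mul]
    exact mul_le_mul_of_nonneg_left (mul_le_mul hp hq (abs_nonneg _) hM) (abs_nonneg _)
  have m1 := abs_le.1 (m (χ := χ0) hp hr)
  have m2 := abs_le.1 (m (χ := χ1) hp hs)
  have m3 := abs_le.1 (m (χ := χ1) hq hr)
  have m4 := abs_le.1 (m (χ := χ2) hq hs)
  have k1 : |2 * (o * o) * x| ≤ M * M * (|χ0| + |χ1| + |χ2|) := by
    rw [h, abs_le]
    constructor <;> linarith [m1.1, m1.2, m2.1, m2.2, m3.1, m3.2, m4.1, m4.2]
  have k2 : c1 ^ 2 ≤ o ^ 2 := by rw [← sq_abs o]; exact pow_le_pow_left₀ h1.le ho 2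
  rw [abs_mul, abs_of_nonneg (mul_nonneg two_pos.le (mul_self_nonneg o))] at k1
  rw [div_mul_eq_mul_div, le_div_iff₀ (by positivity)]
  nlinarith [abs_nonneg x, mul_nonneg (abs_nonneg x) (sq_nonneg o)]

/-- The second fundamental form is dominated by the Lie derivative of the metric. -/
lemma Ctx.dom (c : Ctx k a A A0 ε η δ cb u U u1 v1) : ∃ K, ∀ y ∈ Qd u1 v1 Th,
    ∀ (b : R4) (s11 s12 s21 s22 c11 c12 c21 c22 ϖ x : ℝ), c12 + c21 = 2 * x →
      D b (S k U O) y = S k U O y * ϖ →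
      D b (S k U P11) y = S k U P11 y * s11 + S k U P12 y * s21 + (ϖ - c11) * S k U P11 y -
        c12 * S k U P21 y →
      D b (S k U P12) y = S k U P11 y * s12 + S k U P12 y * s22 + (ϖ - c11) * S k U P12 y -
        c12 * S k U P22 y →
      D b (S k U P21) y = S k U P21 y * s11 + S k U P22 y * s21 - c21 * S k U P11 y +
        (ϖ - c22) * S k U P21 y →
      D b (S k U P22) y = S k U P21 y * s12 + S k U P22 y * s22 - c21 * S k U P12 y +
        (ϖ - c22) * S k U P22 y →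
      ‖((c11, x, x, c22) : R4)‖ ≤ K * (|D b (Cf U 0) y + 2 * Cf U 0 y * s11 + Cf U 1 y * s12| +
        |D b (Cf U 1) y + Cf U 1 y * (s11 + s22) + 2 * Cf U 2 y * s12 + 2 * Cf U 0 y * s21| +
        |D b (Cf U 2) y + Cf U 1 y * s21 + 2 * Cf U 2 y * s22|) := by
  obtain ⟨c1, h1, h2⟩ := c.lowO
  obtain ⟨M, h3, h4⟩ := c.bdS
  refine ⟨M * M / c1 ^ 2, fun y hy b s11 s12 s21 s22 c11 c12 c21 c22 ϖ x hx f0 f11 f12 f21 f22 => ?_⟩
  have hy' := c.sub hy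
  have d := fun i => dif (S_sm c.hU hy' i)
  obtain ⟨d0, d1, d2⟩ := Cf_dif c.hU hy'
  obtain ⟨e11, e12, e22⟩ := rel0 c.hU hy'
  have ev := (isOpen_Om δ).mem_nhds hy'
  have q11 := quad_D (G := fun y => S k U O y * S k U O y) b d0 d1 d2 (d P11) (d P12) (d P11)
    (d P12) (eventually_of_mem ev fun y hy => by linear_combination (rel0 c.hU hy).1)
  have q12 := quad_D (G := fun _ => 0) b d0 d1 d2 (d P11) (d P12) (d P21)
    (d P22) (eventually_of_mem ev fun y hy => by linear_combination (rel0 c.hU hy).2.1)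
  have q22 := quad_D (G := fun y => S k U O y * S k U O y) b d0 d1 d2 (d P21) (d P22) (d P21)
    (d P22) (eventually_of_mem ev fun y hy => by linear_combination (rel0 c.hU hy).2.2)
  rw [D_mul b (d O) (d O)] at q11 q22
  rw [D_const] at q12
  obtain ⟨r1, r2, r3⟩ := lie_alg e11 e12 e22 (h0 := D b (Cf U 0) y) (h1 := D b (Cf U 1) y)
    (h2 := D b (Cf U 2) y) (by linear_combination q11) (by linear_combination q12)
    (by linear_combination q22) f0 f11 f12 f21 f22 rfl rfl rfl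
  have b11 := h4 y hy P11 rfl
  have b12 := h4 y hy P12 rfl
  have b21 := h4 y hy P21 rfl
  have b22 := h4 y hy P22 rfl
  rw [hx, show S k U O y * S k U O y * (2 * x) = 2 * (S k U O y * S k U O y) * x by ring] at r2
  have t2 := dom_alg h1 (h2 y hy) b11 b12 b21 b22 r2
  exact norm_prod_le_iff.2 ⟨dom_alg h1 (h2 y hy) b11 b12 b11 b12 (by linear_combination r1),
    norm_prod_le_iff.2 ⟨t2, norm_prod_le_iff.2
      ⟨t2, dom_alg h1 (h2 y hy) b21 b22 b21 b22 (by linear_combination r3)⟩⟩⟩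

/-- Four unknowns as one vector. -/
noncomputable def tup (U : R4 → Ix → ℝ) (i j l m : Ix) (y : R4) : R4 :=
  (F U i y, F U j y, F U l y, F U m y)

lemma D_tup (hU : IsCh k a ε η δ cb u U) (hy : y ∈ Om δ) (i j l m : Ix) (b : R4) :
    D b (tup U i j l m) y = (D b (F U i) y, D b (F U j) y, D b (F U l) y, D b (F U m) y) := by
  have d := fun i => (dif (F_sm hU hy.1 i)).hasFDerivAt
  exact congrArg (fun B : R4 →L[ℝ] R4 => B b)
    ((d i).prodMk ((d j).prodMk ((d l).prodMk (d m)))).fderiv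

lemma D_lv (U : R4 → Ix → ℝ) (f : R4 → ℝ) (y : R4) : D (lv (Cf U) y) f y = 1 / 2 * Dl U f y := by
  have : lv (Cf U) y = dv + Cf U 4 y • d1 + Cf U 5 y • d2 := by simp [lv, dv, d1, d2]
  rw [this, (Cf4 U).1, (Cf4 U).2]
  simp only [D, Dl, map_add, map_smul, smul_eq_mul]
  ring

lemma Ctx.tR (c : Ctx k a A A0 ε η δ cb u U u1 v1) (Ll : List (ℤ × Ix))
    (Lq : List (ℤ × Ix × Ix)) : T1 (Qd u1 v1 Th) 4
      (fun y => -(1 / 2) * (linS (U (uv.symm y)) Ll + quadS (U (uv.symm y)) Lq)) 1 :=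
  W.cmul _ (W.add (wlist Ll (F := fun t y => t.1 * F U t.2 y) fun _ _ => W.cmul _ (c.tF _))
    (wlist Lq (F := fun t y => t.1 * (F U t.2.1 y * F U t.2.2 y)) fun _ _ =>
      W.cmul _ (W.mul1 (c.tF _) (c.tF _))))

lemma Ctx.tL (c : Ctx k a A A0 ε η δ cb u U u1 v1) {i : Ix} (h : cL i = 1 ∧ angL i = []) :
    T1 (Qd u1 v1 Th) 4 (fun y => D (lv (Cf U) y) (F U i) y) 1 :=
  wcongr (c.tR (linL i) (quadL i)) (isOpen_Qd _ _) fun y hy => by
    have := (full_at c.hU (c.sub hy)).1.eqL i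
    rw [resL, h.1, h.2, (dfr_F U y i).1] at this
    rw [D_lv, Dl]
    simp only [angS, List.map_nil, List.sum_nil, Int.cast_one] at this
    linarith

lemma Ctx.tN (c : Ctx k a A A0 ε η δ cb u U u1 v1) {i : Ix} (h : cN i = 1 ∧ angN i = []) :
    T1 (Qd u1 v1 Th) 4 (D du (F U i)) 1 :=
  wcongr (c.tR (linN i) (quadN i)) (isOpen_Qd _ _) fun y hy => by
    have := (full_at c.hU (c.sub hy)).1.eqN i
    rw [resN, h.1, h.2, (dfr_F U y i).2.1] at this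
    simp only [angS, List.map_nil, List.sum_nil, Int.cast_one] at this
    linarith

lemma Ctx.wtup (c : Ctx k a A A0 ε η δ cb u U u1 v1) (i j l m : Ix) :
    W (Qd u1 v1 Th) [all] (tup U i j l m) 1 :=
  T1.wall (T1.le (n := 4) (W.pair (c.tF i) (W.pair (c.tF j) (W.pair (c.tF l) (c.tF m))))
    (by norm_num))

lemma Ctx.domL (c : Ctx k a A A0 ε η δ cb u U u1 v1) :
    Dom (Qd u1 v1 Th) (lv (Cf U)) (chi (Cf U)) (tup U X11 X12 X21 X22) := by
  obtain ⟨K, hK⟩ := c.dom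
  refine ⟨⟨K, fun y hy => ?_⟩, c.wtup _ _ _ _, wcongr (T1.wall (T1.le (n := 4)
    (W.pair (c.tL (i := X11) ⟨rfl, rfl⟩) (W.pair (c.tL (i := X12) ⟨rfl, rfl⟩)
      (W.pair (c.tL (i := X21) ⟨rfl, rfl⟩) (c.tL (i := X22) ⟨rfl, rfl⟩)))) (by norm_num)))
    (isOpen_Qd _ _) fun y hy => D_tup c.hU (c.sub hy) _ _ _ _ _⟩
  have hy' := c.sub hy
  have sy : F U X21 y = F U X12 y := (symXY (full_at c.hU hy').1).1
  have e : ∀ i, cls i = .P → D (lv (Cf U) y) (S k U i) y = 1 / 2 * Rl k U i y := fun i hi => by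
    rw [D_lv, eq_l c.hU hy' hi]
  have e4 : ∀ b, D b (Cf U 4) y = 1 / 2 * D b (F U b1) y := fun b => by
    rw [(Cf4 U).1, D_half c.hU hy']
  have e5 : ∀ b, D b (Cf U 5) y = 1 / 2 * D b (F U b2) y := fun b => by
    rw [(Cf4 U).2, D_half c.hU hy']
  have := hK y hy (lv (Cf U) y) (D d1 (Cf U 4) y) (D d1 (Cf U 5) y) (D d2 (Cf U 4) y)
    (D d2 (Cf U 5) y) (F U X11 y) (F U X21 y - F U r0 y / 2) (F U X12 y + F U r0 y / 2)
    (F U X22 y) (V k U om y / 2) (F U X12 y) (by rw [sy]; ring)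
    (by rw [e O rfl]; simp only [Rl]; ring) (by rw [e P11 rfl, e4, e4]; simp only [Rl]; ring)
    (by rw [e P12 rfl, e5, e5]; simp only [Rl]; ring)
    (by rw [e P21 rfl, e4, e4]; simp only [Rl]; ring)
    (by rw [e P22 rfl, e5, e5]; simp only [Rl]; ring)
  rw [tup, sy]
  exact this

lemma Ctx.domN (c : Ctx k a A A0 ε η δ cb u U u1 v1) :
    Dom (Qd u1 v1 Th) (fun _ => du) (fun i => D du (Cf U i)) (tup U Y11 Y12 Y21 Y22) := by
  obtain ⟨K, hK⟩ := c.dom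
  refine ⟨⟨K, fun y hy => ?_⟩, c.wtup _ _ _ _, wcongr (T1.wall (T1.le (n := 4)
    (W.pair (c.tN (i := Y11) ⟨rfl, rfl⟩) (W.pair (c.tN (i := Y12) ⟨rfl, rfl⟩)
      (W.pair (c.tN (i := Y21) ⟨rfl, rfl⟩) (c.tN (i := Y22) ⟨rfl, rfl⟩)))) (by norm_num)))
    (isOpen_Qd _ _) fun y hy => D_tup c.hU (c.sub hy) _ _ _ _ _⟩
  have hy' := c.sub hy
  have sy : F U Y21 y = F U Y12 y := (symXY (full_at c.hU hy').1).2
  have e : ∀ i, cls i = .P → D du (S k U i) y = 1 / 2 * Rn k U i y := fun i hi => by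
    rw [← eq_n c.hU hy' hi]; ring
  have := hK y hy du 0 0 0 0 (F U Y11 y) (F U Y21 y) (F U Y12 y) (F U Y22 y) (V k U omb y / 2)
    (F U Y12 y) (by rw [sy]; ring) (by rw [e O rfl]; simp only [Rn]; ring)
    (by rw [e P11 rfl]; simp only [Rn]; ring) (by rw [e P12 rfl]; simp only [Rn]; ring)
    (by rw [e P21 rfl]; simp only [Rn]; ring) (by rw [e P22 rfl]; simp only [Rn]; ring)
  rw [tup, sy]
  simpa using this

lemma tup_le (x : R4) : |x.1| ≤ ‖x‖ ∧ |x.2.1| ≤ ‖x‖ ∧ |x.2.2.1| ≤ ‖x‖ ∧ |x.2.2.2| ≤ ‖x‖ :=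
  ⟨norm_fst_le x, (norm_fst_le _).trans (norm_snd_le x),
    (norm_fst_le _).trans ((norm_snd_le _).trans (norm_snd_le x)),
    (norm_snd_le _).trans ((norm_snd_le _).trans (norm_snd_le x))⟩

lemma prod_le {M N p q : ℝ} (hp : |p| ≤ M) (hq : |q| ≤ N) : -(M * N) ≤ p * q ∧ p * q ≤ M * N :=
  abs_le.1 (by rw [abs_mul]; exact mul_le_mul hp hq (abs_nonneg _) ((abs_nonneg _).trans hp))

lemma Ctx.blowL (c : Ctx k a A A0 ε η δ cb u U u1 v1) : ∃ K, 0 < K ∧ ∀ y ∈ Qd u1 v1 Th,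
    |F U a1 y| + |F U a2 y| ≤ K * (‖tup U X11 X12 X21 X22 y‖ +
      ‖DL (lv (Cf U)) (tup U X11 X12 X21 X22) y‖) := by
  obtain ⟨M, h0, hM⟩ := c.bdF
  refine ⟨4 + 16 * M, by positivity, fun y hy => ?_⟩
  obtain ⟨e1, e2, -⟩ := lX (full_at c.hU (c.sub hy)).1
  obtain ⟨n1, n2, n3, n4⟩ := tup_le (tup U X11 X12 X21 X22 y)
  obtain ⟨m1, m2, -⟩ := tup_le (DL (lv (Cf U)) (tup U X11 X12 X21 X22) y)
  have e0 : DL (lv (Cf U)) (tup U X11 X12 X21 X22) y = _ := D_tup c.hU (c.sub hy) _ _ _ _ _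
  generalize ‖DL (lv (Cf U)) (tup U X11 X12 X21 X22) y‖ = N' at m1 m2 ⊢
  generalize ‖tup U X11 X12 X21 X22 y‖ = N at n1 n2 n3 n4 ⊢
  rw [e0] at m1 m2
  dsimp only at m1 m2
  rw [D_lv, Dl, ← (dfr_F U y _).1, abs_le] at m1 m2
  dsimp only [tup, F] at n1 n2 n3 n4 m1 m2 hM ⊢
  have p1 := fun i => prod_le (hM y hy i) n1
  have p2 := fun i => prod_le (hM y hy i) n2
  have p3 := fun i => prod_le (hM y hy i) n3
  have p4 := fun i => prod_le (hM y hy i) n4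
  have k1 : |U (uv.symm y) a1| ≤ 2 * N' + 8 * (M * N) := by
    rw [abs_le]
    constructor <;> linarith [p1 X11, p1 om, p2 X21, p2 r0, p3 r0, m1.1, m1.2]
  have k2 : |U (uv.symm y) a2| ≤ 2 * N' + 8 * (M * N) := by
    rw [abs_le]
    constructor <;> linarith [p1 X12, p1 r0, p2 X22, p2 om, p4 r0, m2.1, m2.2]
  nlinarith [(abs_nonneg _).trans n1, mul_nonneg h0 (show 0 ≤ N' by linarith [m1.1, m1.2])]

lemma Ctx.blowN (c : Ctx k a A A0 ε η δ cb u U u1 v1) : ∃ K, 0 < K ∧ ∀ y ∈ Qd u1 v1 Th,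
    |F U ab1 y| + |F U ab2 y| ≤ K * (‖tup U Y11 Y12 Y21 Y22 y‖ +
      ‖D du (tup U Y11 Y12 Y21 Y22) y‖) := by
  obtain ⟨M, h0, hM⟩ := c.bdF
  refine ⟨4 + 16 * M, by positivity, fun y hy => ?_⟩
  obtain ⟨e1, e2⟩ := nY (full_at c.hU (c.sub hy)).1
  obtain ⟨n1, n2, -⟩ := tup_le (tup U Y11 Y12 Y21 Y22 y)
  obtain ⟨m1, m2, -⟩ := tup_le (D du (tup U Y11 Y12 Y21 Y22) y)
  generalize ‖D du (tup U Y11 Y12 Y21 Y22) y‖ = N' at m1 m2 ⊢
  generalize ‖tup U Y11 Y12 Y21 Y22 y‖ = N at n1 n2 ⊢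
  rw [D_tup c.hU (c.sub hy), abs_le] at m1 m2
  rw [(dfr_F U y _).2.1] at e1 e2
  dsimp only [tup, F] at n1 n2 m1 m2 hM ⊢
  have p1 := fun i => prod_le (hM y hy i) n1
  have p2 := fun i => prod_le (hM y hy i) n2
  have p0 := mul_nonneg h0 ((abs_nonneg _).trans n1)
  have k1 : |U (uv.symm y) ab1| ≤ 2 * N' + 8 * (M * N) := by
    rw [abs_le]
    constructor <;> linarith [p1 Y11, p1 omb, p2 Y21, m1.1, m1.2]
  have k2 : |U (uv.symm y) ab2| ≤ 2 * N' + 8 * (M * N) := by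
    rw [abs_le]
    constructor <;> linarith [p1 Y12, p2 Y22, p2 omb, m2.1, m2.2]
  nlinarith [(abs_nonneg _).trans n1, mul_nonneg h0 (show 0 ≤ N' by linarith [m1.1, m1.2])]

lemma th_ball {θ : ℝ × ℝ} (h : θ ∈ Th) : ∃ r > 0, ∀ z : ℝ × ℝ, ‖z - θ‖ < r → z ∈ Th := by
  have o : IsOpen Th := isOpen_lt (by fun_prop) continuous_const
  obtain ⟨r, hr, h⟩ := Metric.isOpen_iff.1 o θ h
  exact ⟨r, hr, fun z hz => h (mem_ball_iff_norm.2 hz)⟩

/-- **ANA.** -/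
theorem ana : ANA := by
  intro k a A A0 hk hW
  refine ⟨kap k a, kap_wt hk hW, fun ε η δ cb u U hd hu hU hR hL =>
    ⟨tup U X11 X12 X21 X22, tup U Y11 Y12 Y21 Y22, fun u1 v1 hq => ?_, ?_, ?_⟩⟩
  · have c : Ctx k a A A0 ε η δ cb u U u1 v1 := ⟨hk, hW, hu, hU, hd, hq⟩
    exact ⟨c.est, c.domL, c.domN⟩
  · refine bu_mono hR (by linarith) fun p θ hθ => ?_
    obtain ⟨r, hr, hb⟩ := th_ball hθ
    have c : Ctx k a A A0 ε η δ cb u U (p - r) (r - p) := ⟨hk, hW, hu, hU, hd, by linarith⟩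
    obtain ⟨K, h0, hK⟩ := c.blowL
    exact ⟨r, hr, K, r - p, h0, fun x h1 h2 h3 =>
      hK x ⟨by linarith [(abs_lt.1 h1).1], h2, hb _ h3⟩⟩
  · refine bu_mono hL (by linarith) fun p θ hθ => ?_
    obtain ⟨r, hr, hb⟩ := th_ball hθ
    have c : Ctx k a A A0 ε η δ cb u U (r - p) (p - r) := ⟨hk, hW, hu, hU, hd, by linarith⟩
    obtain ⟨K, h0, hK⟩ := c.blowN
    exact ⟨r, hr, K, r - p, h0, fun x h1 h2 h3 =>
      hK (sw x) ⟨h2, show p - r < cu x by linarith [(abs_lt.1 h1).1], hb _ h3⟩⟩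

end Vale.Agent.P354M
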