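import Vale.Agent.P354A.Ceq

/-!
Consequences of the structure equations at a point.
-/

namespace Vale.Agent.P354M

open Vale.Agent.P354C Vale.Agent.P354C.Ix Vale.Agent.P354A

variable {U : Ix → ℝ} {dU : Fin 4 → Ix → ℝ}

theorem symXY (h : Full U dU) : U X21 = U X12 ∧ U Y21 = U Y12 := by
  have h0 := h.tor 2 3 0
  have h1 := h.tor 2 3 1
  simp [torC, Fin.sum_univ_four, Gam, E, dEof] at h0 h1
  constructor <;> linarith

theorem lP (h : Full U dU) :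
    dU 0 P11 = dU 2 b1 + (U om - 2 * U X11) * U P11 + (U r0 - 2 * U X21) * U P21 ∧
    dU 0 P12 = dU 2 b2 + (U om - 2 * U X11) * U P12 + (U r0 - 2 * U X21) * U P22 ∧
    dU 0 P21 = dU 3 b1 + (-U r0 - 2 * U X12) * U P11 + (U om - 2 * U X22) * U P21 ∧
    dU 0 P22 = dU 3 b2 + (-U r0 - 2 * U X12) * U P12 + (U om - 2 * U X22) * U P22 := by
  have h0 := h.tor 0 2 0
  have h1 := h.tor 0 3 0
  have h2 := h.tor 0 2 2
  have h3 := h.tor 0 2 3
  have h4 := h.tor 0 3 2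
  have h5 := h.tor 0 3 3
  simp [torC, Fin.sum_univ_four, Gam, E, dEof] at h0 h1 h2 h3 h4 h5
  refine ⟨?_, ?_, ?_, ?_⟩
  · linear_combination -h2 + U b1 * h0
  · linear_combination -h3 + U b2 * h0
  · linear_combination -h4 + U b1 * h1
  · linear_combination -h5 + U b2 * h1

theorem nP (h : Full U dU) :
    dU 1 P11 = (U omb - 2 * U Y11) * U P11 - 2 * U Y21 * U P21 ∧
    dU 1 P12 = (U omb - 2 * U Y11) * U P12 - 2 * U Y21 * U P22 ∧
    dU 1 P21 = (U omb - 2 * U Y22) * U P21 - 2 * U Y12 * U P11 ∧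
    dU 1 P22 = (U omb - 2 * U Y22) * U P22 - 2 * U Y12 * U P12 := by
  have h1 := h.eqN P11
  have h2 := h.eqN P12
  have h3 := h.eqN P21
  have h4 := h.eqN P22
  simp [resN, cN, angS, angN, linS, linN, quadS, quadN] at h1 h2 h3 h4
  refine ⟨?_, ?_, ?_, ?_⟩ <;> linarith

theorem dO (h : Full U dU) : dU 0 O = U O * U om ∧ dU 1 O = U O * U omb :=
  ⟨h.dO 0, h.dO 1⟩

theorem nb (h : Full U dU) :
    dU 1 b1 = 2 * ((U A1 - U B1) * U P11 + (U A2 - U B2) * U P21) ∧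
    dU 1 b2 = 2 * ((U A1 - U B1) * U P12 + (U A2 - U B2) * U P22) := by
  have h1 := h.eqN b1
  have h2 := h.eqN b2
  simp [resN, cN, angS, angN, linS, linN, quadS, quadN] at h1 h2
  constructor <;> linarith

theorem lX (h : Full U dU) :
    dU 0 X11 = -U a1 - 2 * U X11 * U X11 + 2 * U om * U X11 - 2 * U X21 * U X12 +
      U r0 * U X12 + U r0 * U X21 ∧
    dU 0 X12 = -U a2 - 2 * U X12 * U X11 - U r0 * U X11 - 2 * U X22 * U X12 +
      2 * U om * U X12 + U r0 * U X22 ∧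
    dU 0 X21 = -U a2 - 2 * U X21 * U X11 - U r0 * U X11 - 2 * U X22 * U X21 +
      2 * U om * U X21 + U r0 * U X22 ∧
    dU 0 X22 = U a1 - 2 * U X21 * U X12 - U r0 * U X12 - U r0 * U X21 - 2 * U X22 * U X22 +
      2 * U om * U X22 := by
  have h1 := h.eqL X11
  have h2 := h.eqL X12
  have h3 := h.eqL X21
  have h4 := h.eqL X22
  simp [resL, cL, angS, angL, linS, linL, quadS, quadL] at h1 h2 h3 h4
  refine ⟨?_, ?_, ?_, ?_⟩ <;> linarith

theorem nY (h : Full U dU) :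
    dU 1 Y11 = -U ab1 - 2 * U Y11 * U Y11 + 2 * U omb * U Y11 - 2 * U Y21 * U Y12 ∧
    dU 1 Y12 = -U ab2 - 2 * U Y12 * U Y11 - 2 * U Y22 * U Y12 + 2 * U omb * U Y12 := by
  have h1 := h.eqN Y11
  have h2 := h.eqN Y12
  simp [resN, cN, angS, angN, linS, linN, quadS, quadN] at h1 h2
  constructor <;> linarith

/-- The derivative of the relation gamma (e_a, e_b) = o^2 delta along a vector field, with the
Lie derivative χ of gamma. -/
theorem lie_alg {o p11 p12 p21 p22 g0 g1 g2 do' q11 q12 q21 q22 h0 h1 h2 s11 s12 s21 s22 c11 c12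
    c21 c22 ω χ0 χ1 χ2 : ℝ}
    (e11 : g0 * p11 * p11 + g1 * p11 * p12 + g2 * p12 * p12 = o * o)
    (e12 : g0 * p11 * p21 + g1 / 2 * (p11 * p22 + p12 * p21) + g2 * p12 * p22 = 0)
    (e22 : g0 * p21 * p21 + g1 * p21 * p22 + g2 * p22 * p22 = o * o)
    (d11 : h0 * p11 * p11 + h1 * p11 * p12 + h2 * p12 * p12 + (2 * g0 * p11 * q11 +
      g1 * (q11 * p12 + p11 * q12) + 2 * g2 * p12 * q12) = 2 * o * do')
    (d12 : h0 * p11 * p21 + h1 / 2 * (p11 * p22 + p12 * p21) + h2 * p12 * p22 +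
      (g0 * (q11 * p21 + p11 * q21) + g1 / 2 * (q11 * p22 + p11 * q22 + q12 * p21 + p12 * q21) +
        g2 * (q12 * p22 + p12 * q22)) = 0)
    (d22 : h0 * p21 * p21 + h1 * p21 * p22 + h2 * p22 * p22 + (2 * g0 * p21 * q21 +
      g1 * (q21 * p22 + p21 * q22) + 2 * g2 * p22 * q22) = 2 * o * do')
    (f0 : do' = o * ω)
    (f11 : q11 = p11 * s11 + p12 * s21 + (ω - c11) * p11 - c12 * p21)
    (f12 : q12 = p11 * s12 + p12 * s22 + (ω - c11) * p12 - c12 * p22)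
    (f21 : q21 = p21 * s11 + p22 * s21 - c21 * p11 + (ω - c22) * p21)
    (f22 : q22 = p21 * s12 + p22 * s22 - c21 * p12 + (ω - c22) * p22)
    (k0 : χ0 = h0 + 2 * g0 * s11 + g1 * s12)
    (k1 : χ1 = h1 + g1 * (s11 + s22) + 2 * g2 * s12 + 2 * g0 * s21)
    (k2 : χ2 = h2 + g1 * s21 + 2 * g2 * s22) :
    2 * (o * o) * c11 = χ0 * p11 * p11 + χ1 * p11 * p12 + χ2 * p12 * p12 ∧
    (o * o) * (c12 + c21) = χ0 * p11 * p21 + χ1 / 2 * (p11 * p22 + p12 * p21) + χ2 * p12 * p22 ∧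
    2 * (o * o) * c22 = χ0 * p21 * p21 + χ1 * p21 * p22 + χ2 * p22 * p22 := by
  subst f0 f11 f12 f21 f22 k0 k1 k2
  refine ⟨?_, ?_, ?_⟩
  · linear_combination -d11 + 2 * (ω - c11) * e11 - 2 * c12 * e12
  · linear_combination -d12 + (2 * ω - c11 - c22) * e12 - c21 * e11 - c12 * e22
  · linear_combination -d22 + 2 * (ω - c22) * e22 - 2 * c21 * e12

/-- The good weights: true for v, false for u. -/
def good (s : Bool) (i : Ix) : Bool :=
  if s then cls i ≠ .U ∧ cls i ≠ .Ud else cls i ≠ .V ∧ cls i ≠ .Vd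

theorem good_or : ∀ i, good true i ∨ good false i := by decide

theorem good_lin : ∀ s i, good s i → (∀ t ∈ linN i, good s t.2 ∧ t.2 ≠ om ∧ t.2 ≠ omb) ∧
    ∀ t ∈ linL i, good s t.2 ∧ t.2 ≠ om ∧ t.2 ≠ omb := by decide

theorem good_quadN : ∀ s i, good s i → ∀ t ∈ quadN i,
    (good s t.2.1 ∧ t.2.1 ≠ om ∧ t.2.1 ≠ omb) ∨ (good s t.2.2 ∧ t.2.2 ≠ om ∧ t.2.2 ≠ omb) := by
  decide

theorem good_quadL : ∀ s i, good s i → ∀ t ∈ quadL i,
    (good s t.2.1 ∧ t.2.1 ≠ om ∧ t.2.1 ≠ omb) ∨ (good s t.2.2 ∧ t.2.2 ≠ om ∧ t.2.2 ≠ omb) := by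
  decide

theorem good_Pc : ∀ s a c, good s (Pc a c) ∧ Pc a c ≠ om ∧ Pc a c ≠ omb := by decide

theorem cN_or : ∀ i, cN i = 1 ∨ cL i = 1 := by decide

end Vale.Agent.P354M
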