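import Vale.Agent.P354M.Cls
import Vale.Agent.P354M.Eqs
import Vale.Agent.P354A.Est
import Vale.Agent.P354I.Iface

/-!
The unknowns in the coordinates (u, v, theta): classes on a quadrant.
-/

open scoped ContDiff
open MeasureTheory Set Filter Topology

namespace Vale.Agent.P354M

open Vale.Agent.P354n (R4 cu cv du dv)
open Vale.Agent.P354L hiding Wt
open Vale.Agent.P354H (X3 e dt dx)
open Vale.Agent.P354C hiding E
open Vale.Agent.P354C.Ix
open Vale.Agent.P354A hiding dv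
open Vale.Agent.P354I (IsCh IsInit Th r2)
open Vale.Agent.P354P (uv)

/-- The unknowns, and the unknowns minus their limits, as functions of (u, v, theta). -/
noncomputable def F (U : R4 → Ix → ℝ) (i : Ix) (y : R4) : ℝ := U (uv.symm y) i
noncomputable def V (k : ℝ) (U : R4 → Ix → ℝ) (i : Ix) (y : R4) : ℝ := Ub k U i (uv.symm y)

/-- The domain of the structure equations. -/
def Om (δ : ℝ) : Set R4 := {y | -(2 * δ) < cu y + cv y ∧ y.2.2.1 ^ 2 + y.2.2.2 ^ 2 < 25 / 4}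

/-- The weight. -/
noncomputable def kap (k : ℝ) (a : ℝ → ℝ) (t : ℝ) : ℝ :=
  a t + Real.exp (-(k / 16 * t)) + Real.exp (-(k / 2 * t))

/-- The weight in v (true) and in u (false). -/
noncomputable def wS (k : ℝ) (a : ℝ → ℝ) (s : Bool) (y : R4) : ℝ :=
  kap k a (if s then cv y else cu y)

lemma uvs (y : R4) : uv.symm y = ((y.1 + y.2.1) / 2, (y.2.1 - y.1) / 2, y.2.2) := rfl

lemma D_uv (f : R4 → ℝ) (a y : R4) :
    D a (fun y => f (uv.symm y)) y = fderiv ℝ f (uv.symm y) (uv.symm a) :=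
  congrArg (fun B : R4 →L[ℝ] ℝ => B a) (uv.symm.comp_right_fderiv (f := f) (x := y))

lemma D_sp (f : R4 → ℝ) : D dX (fun y => f (uv.symm y)) = (fun y => dx 0 f (uv.symm y)) ∧
    D d1 (fun y => f (uv.symm y)) = (fun y => dx 1 f (uv.symm y)) ∧
    D d2 (fun y => f (uv.symm y)) = fun y => dx 2 f (uv.symm y) := by
  refine ⟨?_, ?_, ?_⟩ <;> funext y <;> rw [D_uv, dx] <;> congr 1 <;> simp [uvs, dX, d1, d2, e]

lemma D_null (f : R4 → ℝ) (y : R4) :
    2 * D du (fun y => f (uv.symm y)) y = dt f (uv.symm y) - dx 0 f (uv.symm y) ∧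
    2 * D dv (fun y => f (uv.symm y)) y = dt f (uv.symm y) + dx 0 f (uv.symm y) := by
  rw [D_uv, D_uv, show uv.symm du = (1 / 2, -(1 / 2), 0, 0) by simp [uvs, du]; norm_num,
    show uv.symm dv = (1 / 2, 1 / 2, 0, 0) by simp [uvs, dv], fd4 _ (1 / 2) (-(1 / 2)) 0 0,
    fd4 _ (1 / 2) (1 / 2) 0 0]
  unfold dt dx
  constructor <;> ring

lemma dfr_F (U : R4 → Ix → ℝ) (y : R4) (i : Ix) :
    dfr U (uv.symm y) 0 i = 2 * D dv (F U i) y + F U b1 y * D d1 (F U i) y +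
      F U b2 y * D d2 (F U i) y ∧ dfr U (uv.symm y) 1 i = 2 * D du (F U i) y ∧
    ∀ a, dfr U (uv.symm y) (ai a) i =
      F U (Pc a 0) y * D d1 (F U i) y + F U (Pc a 1) y * D d2 (F U i) y := by
  have h1 := D_null (cmp U i) y
  have h2 := congrFun (D_sp (cmp U i)).2.1 y
  have h3 := congrFun (D_sp (cmp U i)).2.2 y
  refine ⟨?_, ?_, fun a => ?_⟩
  · rw [dfr0, ← h1.2, ← h2, ← h3]; rfl
  · rw [dfr1, ← h1.1]; rfl
  · rw [dfra, ← h2, ← h3]; rfl

lemma sp_of_pb {Q : Set R4} {n : ℕ} {f w : R4 → ℝ} {K : ℝ}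
    (hs : ∀ y ∈ Q, ContDiffAt ℝ ∞ f (uv.symm y))
    (hb : ∀ y ∈ Q, Pb n f (uv.symm y) (K * |w y|)) : Sp Q n (fun y => f (uv.symm y)) w := by
  induction n generalizing f with
  | zero =>
    exact ⟨fun y hy => (hs y hy).comp y uv.symm.contDiff.contDiffAt, K, fun y hy => (hb y hy).zero⟩
  | succ n ih =>
    have k : ∀ j, Sp Q n (fun y => dx j f (uv.symm y)) w := fun j =>
      ih (fun y hy => D_sm _ (hs y hy)) fun y hy => (hb y hy).dx j
    obtain ⟨e1, e2, e3⟩ := D_sp f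
    refine sp_succ.2 ⟨ih hs fun y hy => (hb y hy).mono n.le_succ le_rfl, ?_, ?_, ?_⟩
    · rw [e1]; exact k 0
    · rw [e2]; exact k 1
    · rw [e3]; exact k 2

lemma isOpen_Qd (u1 v1 : ℝ) : IsOpen (Qd u1 v1 Th) :=
  IsOpen.and (isOpen_lt continuous_const (by unfold cu; fun_prop)) (IsOpen.and
    (isOpen_lt continuous_const (by unfold cv; fun_prop))
    (isOpen_lt (f := fun y : R4 => y.2.2.1 ^ 2 + y.2.2.2 ^ 2) (by fun_prop) continuous_const))

/-- The compact set which contains the part of the quadrant in the past of the slice. -/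
def Cp (u1 v1 : ℝ) : Set R4 :=
  (Icc u1 (-v1) ×ˢ Icc v1 (-u1) ×ˢ Icc (-2) 2 ×ˢ Icc (-2) 2) ∩ {y | y.2.2.1 ^ 2 + y.2.2.2 ^ 2 ≤ 2}

lemma cpt_Cp (u1 v1 : ℝ) : IsCompact (Cp u1 v1) :=
  (isCompact_Icc.prod (isCompact_Icc.prod (isCompact_Icc.prod isCompact_Icc))).inter_right
    (isClosed_le (by fun_prop) continuous_const)

lemma mem_Cp {u1 v1 : ℝ} {y : R4} (h : y ∈ Qd u1 v1 Th) (h0 : cu y + cv y ≤ 0) : y ∈ Cp u1 v1 := by
  obtain ⟨h1, h2, h3⟩ := h
  simp only [cu, cv] at h0 h1 h2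
  have h4 : y.2.2.1 ^ 2 + y.2.2.2 ^ 2 < 2 := h3
  refine ⟨⟨⟨h1.le, by linarith⟩, ⟨h2.le, by linarith⟩, ⟨?_, ?_⟩, ?_, ?_⟩, h4.le⟩ <;> nlinarith

lemma Qd_split (u1 v1 : ℝ) : Qd u1 v1 Th =
    (Qd u1 v1 Th ∩ {y | 0 ≤ cu y + cv y}) ∪ (Qd u1 v1 Th ∩ {y | cu y + cv y ≤ 0}) := by
  rw [← inter_union_distrib_left]
  exact (inter_eq_left.2 fun y _ => le_total 0 (cu y + cv y)).symm

/-- The hypotheses. -/
structure Ctx (k : ℝ) (a A : ℝ → ℝ) (A0 ε η δ cb : ℝ) (u : X3 → Ix → ℝ) (U : R4 → Ix → ℝ)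
    (u1 v1 : ℝ) : Prop where
  hk : 0 < k
  hW : Wt k a A A0
  hu : IsInit u
  hU : IsCh k a ε η δ cb u U
  hd : 0 < δ
  hq : -(2 * δ) < u1 + v1

variable {k A0 ε η δ cb u1 v1 : ℝ} {a A : ℝ → ℝ} {u : X3 → Ix → ℝ} {U : R4 → Ix → ℝ}

lemma sm_at (hU : IsCh k a ε η δ cb u U) {y : R4} (hy : -(2 * δ) < cu y + cv y) (i : Ix) :
    ContDiffAt ℝ ∞ (cmp U i) (uv.symm y) :=
  (hU.smooth i).contDiffAt ((isOpen_lt continuous_const continuous_fst).mem_nhds (by
    show -δ < (y.1 + y.2.1) / 2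
    simp only [cu, cv] at hy
    linarith))

lemma F_sm (hU : IsCh k a ε η δ cb u U) {y : R4} (hy : -(2 * δ) < cu y + cv y) (i : Ix) :
    ContDiffAt ℝ ∞ (F U i) y := (sm_at hU hy i).comp y uv.symm.contDiff.contDiffAt

lemma full_at (hU : IsCh k a ε η δ cb u U) {y : R4} (hy : y ∈ Om δ) :
    Full (U (uv.symm y)) (dfr U (uv.symm y)) ∧ 0 < U (uv.symm y) O ∧ detP (U (uv.symm y)) ≠ 0 :=
  hU.full _ (by
    show -δ < (y.1 + y.2.1) / 2
    have := hy.1
    simp only [cu, cv] at this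
    linarith) hy.2

lemma Ctx.sub (c : Ctx k a A A0 ε η δ cb u U u1 v1) : Qd u1 v1 Th ⊆ Om δ := fun y hy =>
  ⟨by linarith [c.hq, hy.1, hy.2.1], (show y.2.2.1 ^ 2 + y.2.2.2 ^ 2 < 2 from hy.2.2).trans
    (by norm_num)⟩

lemma Ctx.subC (c : Ctx k a A A0 ε η δ cb u U u1 v1) : Cp u1 v1 ⊆ Om δ := fun y hy =>
  ⟨by simp only [cu, cv]; linarith [c.hq, hy.1.1.1, hy.1.2.1.1],
    (show y.2.2.1 ^ 2 + y.2.2.2 ^ 2 ≤ 2 from hy.2).trans_lt (by norm_num)⟩

lemma kap_pos (hW : Wt k a A A0) (t : ℝ) : 0 < kap k a t := by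
  have := hW.pos t
  unfold kap
  positivity

lemma kap_le (hk : 0 < k) (hW : Wt k a A A0) {t s : ℝ} (h : t ≤ s) :
    kap k a s ≤ 1 + Real.exp (-(k / 16 * t)) + Real.exp (-(k / 2 * t)) := by
  unfold kap
  gcongr
  exact hW.le s

lemma ex_le_ex (hk : 0 < k) {m m' t : ℝ} (hm : m ≤ m') (ht : 0 ≤ t) : ex k m' t ≤ ex k m t :=
  Real.exp_le_exp.2 (by nlinarith [mul_nonneg (mul_nonneg (sub_nonneg.2 hm) hk.le) ht])

lemma gB_le (hk : 0 < k) (i : Ix) {t : ℝ} (ht : 0 ≤ t) : gB k η i t ≤ |η| * ex k 8 t := by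
  unfold gB
  refine mul_le_mul (le_abs_self _) ?_ (ex_pos _ _ _).le (abs_nonneg _)
  split_ifs
  · exact ex_le_ex hk (by norm_num) ht
  · exact le_rfl

lemma bY_le (hk : 0 < k) (hW : Wt k a A A0) {s : Bool} {i : Ix} (hi : good s i) {t : ℝ}
    (ht : 0 ≤ t) (x : ℝ) :
    bY k a (cls i) t x ≤ a (if s then t + x else t - x) + ex k 2 t := by
  have p1 := hW.pos (t + x)
  have p2 := hW.pos (t - x)
  have f2 := ex_pos k 2 t
  have g1 := mul_le_of_le_one_right f2.le (hW.le x)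
  have g2 := (mul_le_of_le_one_right (ex_pos k 4 t).le (hW.le x)).trans
    (ex_le_ex hk (show (2 : ℝ) ≤ 4 by norm_num) ht)
  have g3 := mul_le_of_le_one_right p2.le (hW.le (t + x))
  have g4 := mul_le_of_le_one_left p1.le (hW.le (t - x))
  unfold good at hi
  generalize cls i = c at hi ⊢
  cases s <;> cases c <;> simp [bY] at hi ⊢ <;> linarith

lemma Ctx.spV (c : Ctx k a A A0 ε η δ cb u U u1 v1) {s : Bool} {i : Ix} (hi : good s i) :
    Sp (Qd u1 v1 Th) 5 (V k U i) (wS k a s) := by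
  have hk := c.hk
  rw [Qd_split]
  refine wunion (sp_of_pb (K := (|ε| + |η|) * (1 + Real.exp (-(k / 16 * min u1 v1))))
    (fun y hy => (sm_at c.hU (c.sub hy.1).1 i).sub contDiffAt_const) fun y hy => ?_) ?_
  · have h0 : 0 ≤ (uv.symm y).1 := by
      have : 0 ≤ y.1 + y.2.1 := hy.2
      show 0 ≤ (y.1 + y.2.1) / 2
      linarith
    refine (c.hU.Y _ h0 i).mono le_rfl ?_
    have b1 := bY_le hk c.hW hi h0 (uv.symm y).2.1
    have b0 := (bY_mem hk c.hW (cls i) h0 (uv.symm y).2.1).1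
    have b2 := (gB_le (η := η) hk i h0).trans (mul_le_mul_of_nonneg_left
      (ex_le_ex hk (show (2 : ℝ) ≤ 8 by norm_num) h0) (abs_nonneg η))
    have e1 : (if s then (uv.symm y).1 + (uv.symm y).2.1 else (uv.symm y).1 - (uv.symm y).2.1) =
        if s then cv y else cu y := by
      cases s <;> simp [uvs, cu, cv] <;> ring
    have b3 : ex k 2 (uv.symm y).1 ≤ Real.exp (-(k / 16 * min u1 v1)) *
        Real.exp (-(k / 16 * if s then cv y else cu y)) := by
      rw [← Real.exp_add]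
      refine Real.exp_le_exp.2 ?_
      have q1 := mul_le_mul_of_nonneg_left ((min_le_left u1 v1).trans hy.1.1.le) hk.le
      have q2 := mul_le_mul_of_nonneg_left ((min_le_right u1 v1).trans hy.1.2.1.le) hk.le
      cases s <;> simp only [uvs, cu, cv, if_true, if_false, Bool.false_eq_true] at q1 q2 ⊢ <;>
        linarith
    rw [e1] at b1
    rw [wS, abs_of_pos (kap_pos c.hW _), kap]
    generalize (if s then cv y else cu y) = z at b1 b3 ⊢
    have p1 := c.hW.pos z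
    have p2 := Real.exp_pos (-(k / 16 * z))
    have p3 := Real.exp_pos (-(k / 2 * z))
    have p4 := Real.exp_pos (-(k / 16 * min u1 v1))
    have b4 : a z + ex k 2 (uv.symm y).1 ≤ (1 + Real.exp (-(k / 16 * min u1 v1))) *
        (a z + Real.exp (-(k / 16 * z)) + Real.exp (-(k / 2 * z))) := by nlinarith
    have b5 := mul_le_mul (le_abs_self ε) (b1.trans b4) b0.le (abs_nonneg ε)
    have b6 := mul_le_mul_of_nonneg_left ((le_add_of_nonneg_left p1.le).trans b4) (abs_nonneg η)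
    rw [mul_assoc, add_mul]
    exact add_le_add b5 (b2.trans b6)
  · refine W.mono (sp_cpt (cpt_Cp u1 v1) (fun y hy => mem_Cp hy.1 hy.2) fun y hy =>
      (F_sm c.hU (c.subC hy).1 i).sub contDiffAt_const)
      (Real.exp (k / 2 * max (-u1) (-v1))) fun y hy => ?_
    have h1 : (if s then cv y else cu y) ≤ max (-u1) (-v1) := by
      have := mem_Cp hy.1 hy.2
      cases s
      · exact this.1.1.2.trans (le_max_right _ _)
      · exact this.1.2.1.2.trans (le_max_left _ _)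
    rw [wS, abs_of_pos (kap_pos c.hW _), kap]
    generalize (if s then cv y else cu y) = z at h1 ⊢
    have p1 := c.hW.pos z
    have p2 := Real.exp_pos (-(k / 16 * z))
    have p4 := Real.exp_pos (k / 2 * max (-u1) (-v1))
    have h2 : 1 ≤ Real.exp (k / 2 * max (-u1) (-v1)) * Real.exp (-(k / 2 * z)) := by
      rw [← Real.exp_add]
      exact Real.one_le_exp (by nlinarith)
    rw [Pi.one_apply, abs_one]
    nlinarith

lemma F_eq (k : ℝ) (U : R4 → Ix → ℝ) {i : Ix} (h : i ≠ om ∧ i ≠ omb) : F U i = V k U i := by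
  funext y
  simp [F, V, Ub, U0_eq k h]

lemma Ctx.spZ (c : Ctx k a A A0 ε η δ cb u U u1 v1) {i : Ix} (hi : odd i) :
    Sp (Qd u1 v1 Th) 4 (F U i) (Ex (-(k / 4))) := by
  have hk := c.hk
  rw [Qd_split, F_eq k U (by revert i; decide)]
  refine wunion (sp_of_pb (K := 2 * |ε| + |η|)
    (fun y hy => (sm_at c.hU (c.sub hy.1).1 i).sub contDiffAt_const) fun y hy => ?_) ?_
  · have h0 : 0 ≤ (uv.symm y).1 := by
      have : 0 ≤ y.1 + y.2.1 := hy.2
      show 0 ≤ (y.1 + y.2.1) / 2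
      linarith
    refine (c.hU.Z _ h0 i hi).mono le_rfl ?_
    have e1 : Ex (-(k / 4)) y = ex k 8 (uv.symm y).1 := by
      simp only [Ex, ex, uvs, cu, cv]
      congr 1
      ring
    have b2 := gB_le (η := η) hk i h0
    rw [abs_of_pos (Ex_pos _ _), e1]
    generalize (uv.symm y).1 = t at h0 b2 ⊢
    generalize (uv.symm y).2.1 = x
    have b1 : bZ k a i t x ≤ 2 * ex k 8 t := by
      have p := ex_pos k 8 t
      have q := ex_le hk zero_le_one h0
      have q1 := c.hW.le (t + x)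
      have q2 := c.hW.le (t - x)
      cases i <;> simp only [bZ] <;> nlinarith
    have b3 := mul_le_mul (le_abs_self ε) b1 (bZ_pos c.hW i t x).le (abs_nonneg ε)
    linarith
  · refine W.mono (sp_cpt (cpt_Cp u1 v1) (fun y hy => mem_Cp hy.1 hy.2) fun y hy =>
      (F_sm c.hU (c.subC hy).1 i).sub contDiffAt_const) 1 fun y hy => ?_
    rw [Pi.one_apply, abs_one, one_mul, abs_of_pos (Ex_pos _ _)]
    exact Real.one_le_exp (by nlinarith [show cu y + cv y ≤ 0 from hy.2])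

lemma Ctx.wle (c : Ctx k a A A0 ε η δ cb u U u1 v1) {L : List Lev} {f : R4 → ℝ} {s : Bool}
    (h : W (Qd u1 v1 Th) L f (wS k a s)) : W (Qd u1 v1 Th) L f 1 := by
  refine h.mono (1 + Real.exp (-(k / 16 * min u1 v1)) + Real.exp (-(k / 2 * min u1 v1)))
    fun y hy => ?_
  rw [Pi.one_apply, abs_one, mul_one, wS, abs_of_pos (kap_pos c.hW _)]
  refine kap_le c.hk c.hW ?_
  cases s
  · exact (min_le_left _ _).trans hy.1.le
  · exact (min_le_right _ _).trans hy.2.1.le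

lemma F_add (k : ℝ) (U : R4 → Ix → ℝ) (i : Ix) : F U i = fun y => V k U i y + U0 k i := by
  funext y
  simp [F, V, Ub]

lemma D_FV (k : ℝ) (U : R4 → Ix → ℝ) (i : Ix) (b : R4) : D b (F U i) = D b (V k U i) := by
  funext y
  rw [F_add k, D, D, fderiv_add_const]

lemma Ctx.spF (c : Ctx k a A A0 ε η δ cb u U u1 v1) (i : Ix) : Sp (Qd u1 v1 Th) 5 (F U i) 1 := by
  rw [F_add k]
  exact W.add ((good_or i).elim (fun h => c.wle (c.spV h)) fun h => c.wle (c.spV h)) (W.const _)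

lemma Ctx.spG (c : Ctx k a A A0 ε η δ cb u U u1 v1) {s : Bool} {i : Ix}
    (hi : good s i ∧ i ≠ om ∧ i ≠ omb) : Sp (Qd u1 v1 Th) 4 (F U i) (wS k a s) := by
  rw [F_eq k U hi.2]
  exact (c.spV hi.1).low

/-- The lower order part of a transport equation. -/
lemma Ctx.rest (c : Ctx k a A A0 ε η δ cb u U u1 v1) {s : Bool} {La : List (ℤ × Fin 2 × Ix)}
    {Ll : List (ℤ × Ix)} {Lq : List (ℤ × Ix × Ix)}
    (h1 : ∀ t ∈ Ll, good s t.2 ∧ t.2 ≠ om ∧ t.2 ≠ omb)
    (h2 : ∀ t ∈ Lq, (good s t.2.1 ∧ t.2.1 ≠ om ∧ t.2.1 ≠ omb) ∨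
      (good s t.2.2 ∧ t.2.2 ≠ om ∧ t.2.2 ≠ omb)) :
    Sp (Qd u1 v1 Th) 4 (fun y => angS (dfr U (uv.symm y)) La + linS (U (uv.symm y)) Ll +
      quadS (U (uv.symm y)) Lq) (wS k a s) := by
  refine W.add (W.add ?_ (wlist Ll (F := fun t y => t.1 * F U t.2 y) fun t ht =>
    W.cmul _ (c.spG (h1 t ht)))) (wlist Lq (F := fun t y => t.1 * (F U t.2.1 y * F U t.2.2 y))
      fun t ht => W.cmul _ ((h2 t ht).elim (fun h => W.mul2 (c.spG h) (c.spF _).low)
        fun h => W.mul1 (c.spF _).low (c.spG h)))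
  simp only [angS, (dfr_F U _ _).2.2]
  exact wlist La fun t _ => W.cmul _ (W.add (W.mul2 (c.spG (good_Pc s _ _)) (c.spF _).e1)
    (W.mul2 (c.spG (good_Pc s _ _)) (c.spF _).e2))

/-- The null derivatives of the unknowns have the same weights as the unknowns. -/
lemma Ctx.tV (c : Ctx k a A A0 ε η δ cb u U u1 v1) {s : Bool} {i : Ix} (hi : good s i) :
    T1 (Qd u1 v1 Th) 4 (V k U i) (wS k a s) := by
  have h0 := c.spV hi
  rcases cN_or i with h | h
  · have h1 : Sp (Qd u1 v1 Th) 4 (D du (V k U i)) (wS k a s) := by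
      refine wcongr (W.cmul (-(1 / 2)) (c.rest (La := angN i) (good_lin s i hi).1
        (good_quadN s i hi))) (isOpen_Qd _ _) fun y hy => ?_
      have := (full_at c.hU (c.sub hy)).1.eqN i
      rw [resN, h, (dfr_F U y i).2.1, D_FV k] at this
      push_cast at this
      linarith
    exact t1_iff.2 ⟨h0.low, h1, wcongr (W.add h0.eX h1) (isOpen_Qd _ _) fun y _ => by
      rw [D_X]; ring⟩
  · have h1 : Sp (Qd u1 v1 Th) 4 (D dv (V k U i)) (wS k a s) := by
      refine wcongr (W.cmul (-(1 / 2)) (W.add (c.rest (La := angL i) (good_lin s i hi).2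
        (good_quadL s i hi)) (W.add (W.mul1 (c.spF b1).low h0.e1) (W.mul1 (c.spF b2).low h0.e2))))
        (isOpen_Qd _ _) fun y hy => ?_
      have := (full_at c.hU (c.sub hy)).1.eqL i
      rw [resL, h, (dfr_F U y i).1, D_FV k, D_FV k, D_FV k] at this
      push_cast at this
      linarith
    exact t1_iff.2 ⟨h0.low, wcongr (W.sub h1 h0.eX) (isOpen_Qd _ _) fun y _ => by
      rw [D_X]; ring, h1⟩

lemma Ctx.tG (c : Ctx k a A A0 ε η δ cb u U u1 v1) {s : Bool} {i : Ix}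
    (hi : good s i ∧ i ≠ om ∧ i ≠ omb) : T1 (Qd u1 v1 Th) 4 (F U i) (wS k a s) := by
  rw [F_eq k U hi.2]
  exact c.tV hi.1

lemma Ctx.tF (c : Ctx k a A A0 ε η δ cb u U u1 v1) (i : Ix) : T1 (Qd u1 v1 Th) 4 (F U i) 1 := by
  rw [F_add k]
  exact W.add ((good_or i).elim (fun h => c.wle (c.tV h)) fun h => c.wle (c.tV h)) (W.const _)

end Vale.Agent.P354M
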