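import Vale.Agent.P354L.Cls

/-!
Classes with space derivatives and one or two null derivatives.
-/

open scoped ContDiff
open MeasureTheory Set Filter Topology

namespace Vale.Agent.P354M

open Vale.Agent.P354n (R4 cu cv du dv)
open Vale.Agent.P354L

variable {E : Type} [NormedAddCommGroup E] [NormedSpace ℝ E]
  {Q Q' : Set R4} {L : List Lev} {f g : R4 → E} {w w' p q : R4 → ℝ} {x a b : R4} {n m : ℕ}

/-- The direction of x. -/
def dX : R4 := (-1, 1, 0, 0)

/-- The space directions. -/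
def sp : Lev := [(dX, 1), (d1, 1), (d2, 1)]

/-- f and its space derivatives of order at most n are bounded by a constant times w. -/
def Sp (Q : Set R4) (n : ℕ) (f : R4 → E) (w : R4 → ℝ) : Prop := W Q (List.replicate n sp) f w

lemma sp_succ : Sp Q (n + 1) f w ↔
    Sp Q n f w ∧ Sp Q n (D dX f) w ∧ Sp Q n (D d1 f) w ∧ Sp Q n (D d2 f) w := by
  simp [Sp, List.replicate_succ, W, sp]

lemma Sp.low (h : Sp Q (n + 1) f w) : Sp Q n f w := (sp_succ.1 h).1
lemma Sp.eX (h : Sp Q (n + 1) f w) : Sp Q n (D dX f) w := (sp_succ.1 h).2.1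
lemma Sp.e1 (h : Sp Q (n + 1) f w) : Sp Q n (D d1 f) w := (sp_succ.1 h).2.2.1
lemma Sp.e2 (h : Sp Q (n + 1) f w) : Sp Q n (D d2 f) w := (sp_succ.1 h).2.2.2

lemma Sp.le (h : Sp Q n f w) (hm : m ≤ n) : Sp Q m f w := by
  induction hm with
  | refl => exact h
  | step _ ih => exact ih h.low

lemma Sp.sy (h : Sp Q n f w) : Sy Q n f w := by
  induction n generalizing f with
  | zero => exact h
  | succ n ih =>
    have : Sy Q (n + 1) f w ↔ Sy Q n f w ∧ Sy Q n (D d1 f) w ∧ Sy Q n (D d2 f) w := by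
      simp [Sy, List.replicate_succ, W, ang]
    exact this.2 ⟨ih h.low, ih h.e1, ih h.e2⟩

/-- One null derivative. -/
def T (Q : Set R4) (p q : R4 → ℝ) (L : List Lev) (f : R4 → E) (w : R4 → ℝ) : Prop :=
  W Q ([(du, p), (dv, q)] :: L) f w

lemma t_iff : T Q p q L f w ↔
    W Q L f w ∧ W Q L (D du f) (w * p) ∧ W Q L (D dv f) (w * q) := by
  simp [T, W]

/-- One null derivative without gain, and space derivatives. -/
def T1 (Q : Set R4) (n : ℕ) (f : R4 → E) (w : R4 → ℝ) : Prop :=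
  T Q 1 1 (List.replicate n sp) f w

lemma t1_iff : T1 Q n f w ↔ Sp Q n f w ∧ Sp Q n (D du f) w ∧ Sp Q n (D dv f) w := by
  simp only [T1, t_iff, mul_one, Sp]

lemma T1.low (h : T1 Q (n + 1) f w) : T1 Q n f w :=
  t1_iff.2 ⟨(t1_iff.1 h).1.low, (t1_iff.1 h).2.1.low, (t1_iff.1 h).2.2.low⟩

lemma T1.le (h : T1 Q n f w) (hm : m ≤ n) : T1 Q m f w := by
  induction hm with
  | refl => exact h
  | step _ ih => exact ih h.low

lemma T1.e1 (h : T1 Q (n + 1) f w) : T1 Q n (D d1 f) w :=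
  t1_iff.2 ⟨(t1_iff.1 h).1.e1,
    W.congr (t1_iff.1 h).2.1.e1 fun x hx => D_comm_ev _ _ (W.sm h x hx),
    W.congr (t1_iff.1 h).2.2.e1 fun x hx => D_comm_ev _ _ (W.sm h x hx)⟩

lemma T1.e2 (h : T1 Q (n + 1) f w) : T1 Q n (D d2 f) w :=
  t1_iff.2 ⟨(t1_iff.1 h).1.e2,
    W.congr (t1_iff.1 h).2.1.e2 fun x hx => D_comm_ev _ _ (W.sm h x hx),
    W.congr (t1_iff.1 h).2.2.e2 fun x hx => D_comm_ev _ _ (W.sm h x hx)⟩

lemma T1.wall (h : T1 Q 1 f 1) : W Q [all] f 1 := by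
  obtain ⟨h1, h2, h3⟩ := t1_iff.1 h
  have : W Q [all] f 1 ↔ Sp Q 0 f 1 ∧ Sp Q 0 (D du f) 1 ∧ Sp Q 0 (D dv f) 1 ∧
      Sp Q 0 (D d1 f) 1 ∧ Sp Q 0 (D d2 f) 1 := by
    simp [P354L.all, W, Sp]
  exact this.2 ⟨h1.low, h2.low, h3.low, h1.e1, h1.e2⟩

lemma D_X (f : R4 → E) (x : R4) : D dX f x = D dv f x - D du f x := by
  simp only [D, ← map_sub]
  congr 1
  simp [dX, du, dv]

lemma wcongr (h : W Q L f w) (hQ : IsOpen Q) (e : ∀ x ∈ Q, g x = f x) : W Q L g w :=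
  h.congr fun _ hx => eventually_of_mem (hQ.mem_nhds hx) e

lemma wunion (h : W Q L f w) (h' : W Q' L f w) : W (Q ∪ Q') L f w := by
  induction L generalizing f w with
  | nil =>
    obtain ⟨K, h0, hK⟩ := h.bd
    obtain ⟨K', h0', hK'⟩ := h'.bd
    refine ⟨fun x hx => hx.elim (h.1 x) (h'.1 x), K + K', fun x hx => ?_⟩
    have := mul_nonneg h0 (abs_nonneg (w x))
    have := mul_nonneg h0' (abs_nonneg (w x))
    rcases hx with hx | hx
    · linarith [hK x hx]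
    · linarith [hK' x hx]
  | cons S L ih => exact ⟨ih h.1 h'.1, fun q hq => ih (h.2 q hq) (h'.2 q hq)⟩

/-- On a compact set every smooth function is in the class. -/
lemma sp_cpt {C : Set R4} (hC : IsCompact C) (hQ : Q ⊆ C) (hf : ∀ x ∈ C, ContDiffAt ℝ ∞ f x) :
    Sp Q n f 1 := by
  induction n generalizing f with
  | zero =>
    obtain ⟨K, hK⟩ := hC.exists_bound_of_continuousOn
      fun x hx => (hf x hx).continuousAt.continuousWithinAt
    exact ⟨fun x hx => hf x (hQ hx), K, fun x hx => by simpa using hK x (hQ hx)⟩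
  | succ n ih =>
    exact sp_succ.2 ⟨ih hf, ih fun x hx => D_sm _ (hf x hx), ih fun x hx => D_sm _ (hf x hx),
      ih fun x hx => D_sm _ (hf x hx)⟩

lemma D_mul {f g : R4 → ℝ} (a : R4) (hf : DifferentiableAt ℝ f x) (hg : DifferentiableAt ℝ g x) :
    D a (fun y => f y * g y) x = D a f x * g x + f x * D a g x :=
  D_bil a (ContinuousLinearMap.mul ℝ ℝ) hf hg

lemma D_inv {f : R4 → ℝ} (a : R4) (hf : DifferentiableAt ℝ f x) (h0 : f x ≠ 0) :
    D a (fun y => (f y)⁻¹) x = -(D a f x * ((f x)⁻¹ * (f x)⁻¹)) := by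
  have := (hasDerivAt_inv h0).comp_hasFDerivAt x hf.hasFDerivAt
  unfold D
  rw [show fderiv ℝ (fun y => (f y)⁻¹) x = _ from this.fderiv]
  simp only [smul_apply, smul_eq_mul]
  field_simp

lemma winv {f : R4 → ℝ} {c : ℝ} (h : W Q L f 1) (hc : 0 < c) (hl : ∀ x ∈ Q, c ≤ |f x|) :
    W Q L (fun y => (f y)⁻¹) 1 := by
  have ne : ∀ x ∈ Q, f x ≠ 0 := fun x hx => abs_pos.1 (hc.trans_le (hl x hx))
  induction L with
  | nil =>
    refine ⟨fun x hx => (h.1 x hx).inv (ne x hx), c⁻¹, fun x hx => ?_⟩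
    simpa using inv_anti₀ hc (hl x hx)
  | cons S L ih =>
    refine ⟨ih h.1, fun q hq => ((h.2 q hq).mul2 ((ih h.1).mul2 (ih h.1))).neg.congr
      fun x hx => ?_⟩
    filter_upwards [ev_dif (h.sm x hx), (h.sm x hx).continuousAt.eventually_ne (ne x hx)]
      with y h1 h2 using D_inv _ h1 h2

lemma wlist {β : Type} (M : List β) {F : β → R4 → ℝ} (h : ∀ t ∈ M, W Q L (F t) w) :
    W Q L (fun y => (M.map fun t => F t y).sum) w := by
  induction M with
  | nil => exact W.zero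
  | cons t M ih =>
    exact (h t (by simp)).add (ih fun s hs => h s (List.mem_cons_of_mem _ hs))

/-- The exponential of a multiple of u + v. -/
noncomputable def Ex (c : ℝ) (y : R4) : ℝ := Real.exp (c * (cu y + cv y))

lemma Ex_sm (c : ℝ) : ContDiff ℝ ∞ (Ex c) := by
  unfold Ex cu cv
  fun_prop

lemma D_Ex (c : ℝ) (a y : R4) : D a (Ex c) y = c * (cu a + cv a) * Ex c y := by
  have h : HasFDerivAt (fun y : R4 => c * (y.1 + y.2.1)) _ y :=
    (hasFDerivAt_fst.add (hasFDerivAt_snd (𝕜 := ℝ) (p := y)).fst).const_mul c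
  unfold D
  rw [show fderiv ℝ (Ex c) y = _ from h.exp.fderiv]
  simp [Ex, cu, cv]
  ring

lemma sp_Ex (c : ℝ) : Sp Q n (Ex c) (Ex c) := by
  induction n with
  | zero => exact ⟨fun x _ => (Ex_sm c).contDiffAt, 1, fun x _ => by simp⟩
  | succ n ih =>
    have k : ∀ a : R4, cu a + cv a = 0 → Sp Q n (D a (Ex c)) (Ex c) := fun a ha => by
      rw [show D a (Ex c) = fun _ => 0 from funext fun y => by rw [D_Ex, ha]; simp]
      exact W.zero
    exact sp_succ.2 ⟨ih, k _ (by simp [dX, cu, cv]), k _ (by simp [d1, cu, cv]),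
      k _ (by simp [d2, cu, cv])⟩

lemma Ex_mul (c d : ℝ) (y : R4) : Ex c y * Ex d y = Ex (c + d) y := by
  rw [Ex, Ex, Ex, ← Real.exp_add, add_mul]

lemma Ex_pos (c : ℝ) (y : R4) : 0 < Ex c y := Real.exp_pos _

/-- The blow-up condition passes to a function which dominates. -/
lemma bu_mono {c c' : ℝ} {Θ : Set (ℝ × ℝ)} {F G : R4 → ℝ} (h : BU c Θ F) (hc : c < c')
    (hd : ∀ p : ℝ, ∀ θ ∈ Θ, ∃ r > 0, ∃ K t0 : ℝ, 0 < K ∧ ∀ x : R4, |cu x - p| < r → t0 < cv x →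
      ‖x.2.2 - θ‖ < r → F x ≤ K * G x) : BU c' Θ G := by
  intro p θ hθ r hr
  obtain ⟨r0, hr0, K, t1, hK, hd⟩ := hd p θ hθ
  obtain ⟨η, hη, h⟩ := h p θ hθ (min r r0) (lt_min hr hr0)
  refine ⟨η, hη, fun t0 => ?_⟩
  obtain ⟨t, ht, h⟩ := h (max t0 (max t1 (Real.log K / (c' - c))))
  refine ⟨t, (le_max_left _ _).trans ht, h.trans (measure_mono ?_)⟩
  rintro x ⟨h1, h2, h3, h4⟩
  refine ⟨h1.trans_le (min_le_left _ _), h2, h3.trans_le (min_le_left _ _), ?_⟩
  have k1 : t1 < cv x := (((le_max_left _ _).trans (le_max_right _ _)).trans ht).trans_lt h2.1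
  have k2 : Real.log K / (c' - c) < cv x :=
    (((le_max_right _ _).trans (le_max_right _ _)).trans ht).trans_lt h2.1
  rw [div_lt_iff₀ (sub_pos.2 hc)] at k2
  have k3 := h4.trans_le (hd x (h1.trans_le (min_le_right _ _)) k1
    (h3.trans_le (min_le_right _ _)))
  have k4 : K * Real.exp (-(c' * cv x)) ≤ Real.exp (-(c * cv x)) := by
    rw [← Real.exp_log hK, ← Real.exp_add]
    exact Real.exp_le_exp.2 (by linarith)
  exact lt_of_mul_lt_mul_left (k4.trans_lt k3) hK.le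

end Vale.Agent.P354M
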