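import Vale.Agent.P354M.Base

/-!
The rescaled frame: transport equations, classes, lower bounds.
-/

open scoped ContDiff
open MeasureTheory Set Filter Topology

namespace Vale.Agent.P354M

open Vale.Agent.P354n (R4 cu cv du dv)
open Vale.Agent.P354L hiding Wt
open Vale.Agent.P354H (X3 e dt dx)
open Vale.Agent.P354C hiding E
open Vale.Agent.P354C.Ix
open Vale.Agent.P354A hiding dv
open Vale.Agent.P354I (IsCh IsInit Th r2)
open Vale.Agent.P354P (uv)

variable {k A0 ε η δ cb u1 v1 : ℝ} {a A : ℝ → ℝ} {u : X3 → Ix → ℝ} {U : R4 → Ix → ℝ} {y : R4}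

/-- The rescaled unknown. -/
noncomputable def S (k : ℝ) (U : R4 → Ix → ℝ) (i : Ix) (y : R4) : ℝ := Ex (k / 4) y * F U i y

/-- The derivative along l. -/
noncomputable def Dl (U : R4 → Ix → ℝ) (f : R4 → ℝ) (y : R4) : ℝ :=
  2 * D dv f y + F U b1 y * D d1 f y + F U b2 y * D d2 f y

lemma S_sm (hU : IsCh k a ε η δ cb u U) (hy : y ∈ Om δ) (i : Ix) : ContDiffAt ℝ ∞ (S k U i) y :=
  (Ex_sm _).contDiffAt.mul (F_sm hU hy.1 i)

lemma D_S (hU : IsCh k a ε η δ cb u U) (hy : y ∈ Om δ) (i : Ix) (b : R4) : D b (S k U i) y =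
    Ex (k / 4) y * (D b (F U i) y + k / 4 * (cu b + cv b) * F U i y) := by
  unfold S
  rw [D_mul b (dif (Ex_sm _).contDiffAt) (dif (F_sm hU hy.1 i)), D_Ex]
  ring

lemma nS (hU : IsCh k a ε η δ cb u U) (hy : y ∈ Om δ) (i : Ix) : 2 * D du (S k U i) y =
    Ex (k / 4) y * (dfr U (uv.symm y) 1 i + k / 2 * F U i y) := by
  rw [D_S hU hy, (dfr_F U y i).2.1]
  simp only [cu, cv, du]
  ring

lemma lS (hU : IsCh k a ε η δ cb u U) (hy : y ∈ Om δ) (i : Ix) : Dl U (S k U i) y =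
    Ex (k / 4) y * (dfr U (uv.symm y) 0 i + k / 2 * F U i y) := by
  rw [Dl, D_S hU hy, D_S hU hy, D_S hU hy, (dfr_F U y i).1]
  simp only [cu, cv, dv, d1, d2]
  ring

/-- The right sides of the transport equations of the rescaled frame. -/
noncomputable def Rn (k : ℝ) (U : R4 → Ix → ℝ) (i : Ix) (y : R4) : ℝ :=
  match i with
  | .P11 => (V k U omb y - 2 * F U Y11 y) * S k U P11 y - 2 * F U Y21 y * S k U P21 y
  | .P12 => (V k U omb y - 2 * F U Y11 y) * S k U P12 y - 2 * F U Y21 y * S k U P22 y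
  | .P21 => (V k U omb y - 2 * F U Y22 y) * S k U P21 y - 2 * F U Y12 y * S k U P11 y
  | .P22 => (V k U omb y - 2 * F U Y22 y) * S k U P22 y - 2 * F U Y12 y * S k U P12 y
  | _ => V k U omb y * S k U O y

noncomputable def Rl (k : ℝ) (U : R4 → Ix → ℝ) (i : Ix) (y : R4) : ℝ :=
  match i with
  | .P11 => D d1 (F U b1) y * S k U P11 y + D d2 (F U b1) y * S k U P12 y +
      (V k U om y - 2 * F U X11 y) * S k U P11 y + (F U r0 y - 2 * F U X21 y) * S k U P21 y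
  | .P12 => D d1 (F U b2) y * S k U P11 y + D d2 (F U b2) y * S k U P12 y +
      (V k U om y - 2 * F U X11 y) * S k U P12 y + (F U r0 y - 2 * F U X21 y) * S k U P22 y
  | .P21 => D d1 (F U b1) y * S k U P21 y + D d2 (F U b1) y * S k U P22 y +
      (-F U r0 y - 2 * F U X12 y) * S k U P11 y + (V k U om y - 2 * F U X22 y) * S k U P21 y
  | .P22 => D d1 (F U b2) y * S k U P21 y + D d2 (F U b2) y * S k U P22 y +
      (-F U r0 y - 2 * F U X12 y) * S k U P12 y + (V k U om y - 2 * F U X22 y) * S k U P22 y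
  | _ => V k U om y * S k U O y

lemma cls_P {i : Ix} (h : cls i = .P) : i = O ∨ i = P11 ∨ i = P12 ∨ i = P21 ∨ i = P22 := by
  revert i; decide

lemma eq_n (hU : IsCh k a ε η δ cb u U) (hy : y ∈ Om δ) {i : Ix} (h : cls i = .P) :
    2 * D du (S k U i) y = Rn k U i y := by
  have h0 := (full_at hU hy).1
  obtain ⟨h1, h2, h3, h4⟩ := nP h0
  rw [nS hU hy]
  rcases cls_P h with rfl | rfl | rfl | rfl | rfl <;>
    simp only [Rn, S, F, V, Ub, U0, h1, h2, h3, h4, (dO h0).2] <;> ring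

lemma eq_l (hU : IsCh k a ε η δ cb u U) (hy : y ∈ Om δ) {i : Ix} (h : cls i = .P) :
    Dl U (S k U i) y = Rl k U i y := by
  have h0 := (full_at hU hy).1
  obtain ⟨h1, h2, h3, h4⟩ := lP h0
  have e2 : ∀ j, dfr U (uv.symm y) 2 j = F U P11 y * D d1 (F U j) y + F U P12 y * D d2 (F U j) y :=
    fun j => (dfr_F U y j).2.2 0
  have e3 : ∀ j, dfr U (uv.symm y) 3 j = F U P21 y * D d1 (F U j) y + F U P22 y * D d2 (F U j) y :=
    fun j => (dfr_F U y j).2.2 1
  rw [lS hU hy]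
  rcases cls_P h with rfl | rfl | rfl | rfl | rfl <;>
    simp only [Rl, h1, h2, h3, h4, (dO h0).1, e2, e3] <;> simp only [S, F, V, Ub, U0] <;> ring

lemma wRn {Q : Set R4} {L : List Lev} {w : R4 → ℝ} (h1 : W Q L (V k U omb) w)
    (h2 : ∀ j, cls j = .Ud → W Q L (F U j) w) (h3 : ∀ j, cls j = .P → W Q L (S k U j) 1)
    {i : Ix} (h : cls i = .P) : W Q L (Rn k U i) w := by
  have a1 := h1.sub ((h2 Y11 rfl).cmul 2)
  have a2 := h1.sub ((h2 Y22 rfl).cmul 2)
  have a3 := (h2 Y21 rfl).cmul 2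
  have a4 := (h2 Y12 rfl).cmul 2
  rcases cls_P h with rfl | rfl | rfl | rfl | rfl
  · exact h1.mul2 (h3 O rfl)
  · exact (a1.mul2 (h3 P11 rfl)).sub (a3.mul2 (h3 P21 rfl))
  · exact (a1.mul2 (h3 P12 rfl)).sub (a3.mul2 (h3 P22 rfl))
  · exact (a2.mul2 (h3 P21 rfl)).sub (a4.mul2 (h3 P11 rfl))
  · exact (a2.mul2 (h3 P22 rfl)).sub (a4.mul2 (h3 P12 rfl))

lemma wRl {Q : Set R4} {L : List Lev} {w : R4 → ℝ} (h1 : W Q L (V k U om) w)
    (h2 : ∀ j, cls j = .Vd → W Q L (F U j) w) (h3 : ∀ j, cls j = .P → W Q L (S k U j) 1)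
    (h4 : W Q L (F U r0) w) (b11 : W Q L (D d1 (F U b1)) w) (b21 : W Q L (D d2 (F U b1)) w)
    (b12 : W Q L (D d1 (F U b2)) w) (b22 : W Q L (D d2 (F U b2)) w)
    {i : Ix} (h : cls i = .P) : W Q L (Rl k U i) w := by
  have a1 := h1.sub ((h2 X11 rfl).cmul 2)
  have a2 := h1.sub ((h2 X22 rfl).cmul 2)
  have a3 := h4.sub ((h2 X21 rfl).cmul 2)
  have a4 := h4.neg.sub ((h2 X12 rfl).cmul 2)
  have p11 := h3 P11 rfl
  have p12 := h3 P12 rfl
  have p21 := h3 P21 rfl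
  have p22 := h3 P22 rfl
  rcases cls_P h with rfl | rfl | rfl | rfl | rfl
  · exact h1.mul2 (h3 O rfl)
  · exact (((b11.mul2 p11).add (b21.mul2 p12)).add (a1.mul2 p11)).add (a3.mul2 p21)
  · exact (((b12.mul2 p11).add (b22.mul2 p12)).add (a1.mul2 p12)).add (a3.mul2 p22)
  · exact (((b11.mul2 p21).add (b21.mul2 p22)).add (a4.mul2 p11)).add (a2.mul2 p21)
  · exact (((b12.mul2 p21).add (b22.mul2 p22)).add (a4.mul2 p12)).add (a2.mul2 p22)

lemma Ctx.spS (c : Ctx k a A A0 ε η δ cb u U u1 v1) {i : Ix} (hi : odd i) :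
    Sp (Qd u1 v1 Th) 4 (S k U i) 1 :=
  (W.mul (sp_Ex (k / 4)) (c.spZ hi)).eqw fun y _ => by
    rw [Pi.mul_apply, Ex_mul]
    simp [Ex]

lemma ud_good : ∀ j, cls j = .Ud → good false j ∧ j ≠ om ∧ j ≠ omb := by decide
lemma vd_good : ∀ j, cls j = .Vd → good true j ∧ j ≠ om ∧ j ≠ omb := by decide
lemma p_odd : ∀ j, cls j = .P → odd j := by decide

lemma Ctx.tS (c : Ctx k a A A0 ε η δ cb u U u1 v1) {i : Ix} (hi : cls i = .P) :
    T1 (Qd u1 v1 Th) 3 (S k U i) 1 := by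
  have h0 := c.spS (p_odd i hi)
  have h1 : Sp (Qd u1 v1 Th) 4 (D du (S k U i)) 1 :=
    wcongr (W.cmul (1 / 2) (wRn (c.wle (c.spV (s := false) rfl).low)
      (fun j _ => (c.spF j).low) (fun j hj => c.spS (p_odd j hj)) hi)) (isOpen_Qd _ _)
      fun y hy => by rw [← eq_n c.hU (c.sub hy) hi]; ring
  exact t1_iff.2 ⟨h0.low, h1.low, wcongr (W.add h0.eX h1.low) (isOpen_Qd _ _) fun y _ => by
    rw [D_X]; ring⟩

/-- The class of the coefficients of the metric. -/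
def Gd (k : ℝ) (a : ℝ → ℝ) (Q : Set R4) (f : R4 → ℝ) : Prop :=
  T Q (wS k a false) (wS k a true) ([(du, 1), (dv, 1)] :: List.replicate 2 sp) f 1

lemma gd_iff {Q : Set R4} {f : R4 → ℝ} : Gd k a Q f ↔
    T1 Q 2 f 1 ∧ T1 Q 2 (D du f) (wS k a false) ∧ T1 Q 2 (D dv f) (wS k a true) := by
  simp only [Gd, t_iff, one_mul]
  rfl

lemma Ctx.gS (c : Ctx k a A A0 ε η δ cb u U u1 v1) {i : Ix} (hi : cls i = .P) :
    Gd k a (Qd u1 v1 Th) (S k U i) := by
  have h0 := c.tS hi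
  have b1' := c.tG (s := true) (i := b1) (by decide)
  have b2' := c.tG (s := true) (i := b2) (by decide)
  refine gd_iff.2 ⟨h0.low, wcongr (W.cmul (1 / 2) (wRn ((c.tV (s := false) rfl).le (by norm_num))
    (fun j hj => (c.tG (ud_good j hj)).le (by norm_num)) (fun j hj => (c.tS hj).low) hi))
    (isOpen_Qd _ _) fun y hy => by rw [← eq_n c.hU (c.sub hy) hi]; ring,
    wcongr (W.cmul (1 / 2) (W.sub (wRl ((c.tV (s := true) rfl).le (by norm_num))
      (fun j hj => (c.tG (vd_good j hj)).le (by norm_num)) (fun j hj => (c.tS hj).low)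
      ((c.tG (s := true) (i := r0) (by decide)).le (by norm_num)) b1'.e1.low b1'.e2.low b2'.e1.low
      b2'.e2.low hi) (W.add (W.mul2 b1'.low.low h0.e1) (W.mul2 b2'.low.low h0.e2))))
      (isOpen_Qd _ _) fun y hy => ?_⟩
  rw [← eq_l c.hU (c.sub hy) hi, Dl]
  ring

lemma ode_low {f h G g : ℝ → ℝ} {s0 s1 : ℝ} (hs : s0 ≤ s1)
    (hf : ∀ s ∈ Icc s0 s1, HasDerivAt f (h s * f s) s) (hG : ∀ s, HasDerivAt G (g s) s)
    (hb : ∀ s ∈ Icc s0 s1, |h s| ≤ g s) :
    |f s0| * Real.exp (G s0) ≤ |f s1| * Real.exp (G s1) := by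
  have d : ∀ s ∈ Icc s0 s1, HasDerivAt (fun s => (f s * Real.exp (G s)) ^ 2)
      (2 * (f s * Real.exp (G s)) ^ 2 * (h s + g s)) s := fun s hs => by
    refine (((hf s hs).fun_mul (hG s).exp).fun_pow 2).congr_deriv ?_
    push_cast
    ring
  have m := monotoneOn_of_deriv_nonneg (convex_Icc s0 s1)
    (fun s hs => (d s hs).continuousAt.continuousWithinAt)
    (fun s hs => (d s (interior_subset hs)).differentiableAt.differentiableWithinAt)
    (fun s hs => by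
      rw [(d s (interior_subset hs)).deriv]
      have := (abs_le.1 (hb s (interior_subset hs))).1
      exact mul_nonneg (by positivity) (by linarith))
    (left_mem_Icc.2 hs) (right_mem_Icc.2 hs) hs
  have := sq_le_sq.1 m
  rwa [abs_mul, abs_mul, abs_of_pos (Real.exp_pos _), abs_of_pos (Real.exp_pos _)] at this

lemma Ctx.low (c : Ctx k a A A0 ε η δ cb u U u1 v1) {f h : R4 → ℝ} {M c0 : ℝ} (hM : 0 ≤ M)
    (h0 : 0 < c0) (h1 : ∀ y ∈ Om δ, DifferentiableAt ℝ f y ∧ D du f y = h y * f y ∧ f y ≠ 0)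
    (h2 : ∀ y ∈ Om δ, 0 ≤ cu y + cv y → |h y| ≤ M * (a (cu y) + Ex (-(k / 4)) y))
    (h3 : ∀ y ∈ Om δ, cu y + cv y = 0 → c0 ≤ |f y|) :
    ∃ c1 > 0, ∀ y ∈ Qd u1 v1 Th, c1 ≤ |f y| := by
  have hk := c.hk
  obtain ⟨c2, p2, q2⟩ := (cpt_Cp u1 v1).exists_forall_le' (f := fun y => |f y|)
    (fun y hy => (h1 y (c.subC hy)).1.continuousAt.abs.continuousWithinAt)
    (fun y hy => abs_pos.2 (h1 y (c.subC hy)).2.2)
  refine ⟨min c2 (c0 * Real.exp (-(M * (4 / k)) - M * A0)), lt_min p2 (by positivity),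
    fun y hy => ?_⟩
  rcases le_total (cu y + cv y) 0 with hs | hs
  · exact (min_le_left _ _).trans (q2 y (mem_Cp hy hs))
  refine (min_le_right _ _).trans ?_
  have mem : ∀ s, -cv y ≤ s → ((s, y.2) : R4) ∈ Om δ := fun s hs =>
    ⟨by simp only [cu, cv] at hs ⊢; linarith [c.hd], (c.sub hy).2⟩
  have k1 := ode_low (f := fun s => f (s, y.2)) (h := fun s => h (s, y.2))
    (G := fun s => M * (A s - 4 / k * Real.exp (-(k / 4) * (s + cv y))))
    (g := fun s => M * (a s + Real.exp (-(k / 4) * (s + cv y)))) (s0 := -cv y) (s1 := cu y)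
    (by linarith) (fun s hs => by
      obtain ⟨q1, q2, -⟩ := h1 _ (mem s hs.1)
      rw [← q2]
      exact q1.hasFDerivAt.comp_hasDerivAt s ((hasDerivAt_id s).prodMk (hasDerivAt_const s y.2)))
    (fun s => by
      refine (((c.hW.prim s).fun_sub (((((hasDerivAt_id' s).add_const (cv y)).const_mul
        (-(k / 4))).exp).const_mul (4 / k))).const_mul M).congr_deriv ?_
      field_simp
      ring)
    (fun s hs => h2 _ (mem s hs.1) (by have := hs.1; simp only [cu, cv] at this ⊢; linarith))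
  have k2 := h3 _ (mem (-cv y) le_rfl) (by simp [cu, cv])
  simp only [neg_add_cancel, mul_zero, Real.exp_zero, mul_one] at k1
  have k3 : Real.exp (-(M * (4 / k))) ≤ Real.exp (M * (A (-cv y) - 4 / k)) :=
    Real.exp_le_exp.2 (by nlinarith [c.hW.nn (-cv y)])
  have k4 : Real.exp (M * (A (cu y) - 4 / k * Real.exp (-(k / 4) * (cu y + cv y)))) ≤
      Real.exp (M * A0) := by
    refine Real.exp_le_exp.2 (mul_le_mul_of_nonneg_left ?_ hM)
    have : 0 ≤ 4 / k * Real.exp (-(k / 4) * (cu y + cv y)) := by positivity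
    linarith [c.hW.bd (cu y)]
  rw [Real.exp_sub, ← mul_div_assoc, div_le_iff₀ (Real.exp_pos _)]
  exact (mul_le_mul k2 k3 (Real.exp_pos _).le (abs_nonneg _)).trans
    (k1.trans (mul_le_mul_of_nonneg_left k4 (abs_nonneg _)))

lemma bdU (c : Ctx k a A A0 ε η δ cb u U u1 v1) (h0 : 0 ≤ cu y + cv y) {i : Ix}
    (hi : cls i = .U ∨ cls i = .Ud) :
    |V k U i y| ≤ (|ε| + |η|) * (a (cu y) + Ex (-(k / 4)) y) := by
  have h1 : 0 ≤ (uv.symm y).1 := by
    have : 0 ≤ y.1 + y.2.1 := h0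
    show 0 ≤ (y.1 + y.2.1) / 2
    linarith
  have e1 : ex k 8 (uv.symm y).1 = Ex (-(k / 4)) y := by
    simp only [Ex, ex, uvs, cu, cv]
    congr 1
    ring
  have e2 : bY k a (cls i) (uv.symm y).1 (uv.symm y).2.1 = a (cu y) := by
    rcases hi with h | h <;> simp only [h, bY, uvs, cu] <;> congr 1 <;> ring
  have b1 := (c.hU.Y _ h1 i).zero
  have b2 := gB_le (η := η) c.hk i h1
  rw [e2] at b1
  rw [e1] at b2
  have p1 := c.hW.pos (cu y)
  have p2 := Ex_pos (-(k / 4)) y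
  have b3 := mul_le_mul_of_nonneg_right (le_abs_self ε) p1.le
  have := mul_nonneg (abs_nonneg ε) p2.le
  have := mul_nonneg (abs_nonneg η) p1.le
  unfold V
  linarith

lemma init_at (c : Ctx k a A A0 ε η δ cb u U u1 v1) (hy : y ∈ Om δ) (h0 : cu y + cv y = 0) :
    Ex (k / 4) y = 1 ∧ ∃ z, r2 z ≤ 16 ∧ U (uv.symm y) = u z := by
  have h1 : r2 (uv.symm y).2 < 25 / 4 := hy.2
  have h2 : uv.symm y = (0, (uv.symm y).2) := by
    refine Prod.ext ?_ rfl
    have : y.1 + y.2.1 = 0 := h0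
    show (y.1 + y.2.1) / 2 = 0
    linarith
  exact ⟨by simp [Ex, h0], (uv.symm y).2, by linarith, by
    rw [h2]; exact c.hU.init _ (by linarith)⟩

lemma Ctx.lowO (c : Ctx k a A A0 ε η δ cb u U u1 v1) :
    ∃ c1 > 0, ∀ y ∈ Qd u1 v1 Th, c1 ≤ |S k U O y| := by
  obtain ⟨c0, h0, hl⟩ := c.hu.low
  refine c.low (h := fun y => V k U omb y / 2) (M := |ε| + |η|) (by positivity) h0
    (fun y hy => ⟨dif (S_sm c.hU hy O), ?_, mul_ne_zero (Ex_pos _ _).ne'
      (full_at c.hU hy).2.1.ne'⟩) (fun y _ hs => ?_) fun y hy hs => ?_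
  · have := eq_n c.hU hy (i := O) rfl
    simp only [Rn] at this
    linarith
  · have := bdU c hs (i := omb) (.inl rfl)
    rw [abs_div, abs_two]
    linarith [abs_nonneg (V k U omb y)]
  · obtain ⟨e1, z, hz, e2⟩ := init_at c hy hs
    rw [S, e1, one_mul, F, e2]
    exact (hl z hz).1.trans (le_abs_self _)

/-- The determinant of the rescaled frame. -/
noncomputable def dS (k : ℝ) (U : R4 → Ix → ℝ) (y : R4) : ℝ :=
  S k U P11 y * S k U P22 y - S k U P12 y * S k U P21 y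

lemma dS_eq (k : ℝ) (U : R4 → Ix → ℝ) (y : R4) :
    dS k U y = Ex (k / 4) y ^ 2 * detP (U (uv.symm y)) := by
  simp only [dS, S, F, detP]
  ring

lemma Ctx.lowD (c : Ctx k a A A0 ε η δ cb u U u1 v1) :
    ∃ c1 > 0, ∀ y ∈ Qd u1 v1 Th, c1 ≤ |dS k U y| := by
  obtain ⟨c0, h0, hl⟩ := c.hu.low
  refine c.low (h := fun y => V k U omb y - V k U Y11 y - V k U Y22 y) (M := 3 * (|ε| + |η|))
    (by positivity) h0 (fun y hy => ?_) (fun y _ hs => ?_) fun y hy hs => ?_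
  · have d := fun i => dif (S_sm c.hU hy i)
    refine ⟨((d P11).mul (d P22)).sub ((d P12).mul (d P21)), ?_, ?_⟩
    · have e1 := eq_n c.hU hy (i := P11) rfl
      have e2 := eq_n c.hU hy (i := P12) rfl
      have e3 := eq_n c.hU hy (i := P21) rfl
      have e4 := eq_n c.hU hy (i := P22) rfl
      simp only [Rn] at e1 e2 e3 e4
      unfold dS
      rw [D_sub du ((d P11).fun_mul (d P22)) ((d P12).fun_mul (d P21)), D_mul du (d P11) (d P22),
        D_mul du (d P12) (d P21), ← F_eq k U (i := Y11) (by decide),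
        ← F_eq k U (i := Y22) (by decide)]
      linear_combination S k U P22 y / 2 * e1 - S k U P21 y / 2 * e2 - S k U P12 y / 2 * e3 +
        S k U P11 y / 2 * e4
    · rw [dS_eq]
      exact mul_ne_zero (pow_pos (Ex_pos _ _) 2).ne' (full_at c.hU hy).2.2
  · have q1 := abs_le.1 (bdU c hs (i := omb) (.inl rfl))
    have q2 := abs_le.1 (bdU c hs (i := Y11) (.inr rfl))
    have q3 := abs_le.1 (bdU c hs (i := Y22) (.inr rfl))
    rw [abs_le]
    constructor <;> linarith [q1.1, q1.2, q2.1, q2.2, q3.1, q3.2]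
  · obtain ⟨e1, z, hz, e2⟩ := init_at c hy hs
    rw [dS_eq, e1, e2, one_pow, one_mul]
    exact (hl z hz).2

end Vale.Agent.P354M
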